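import Vale.Agent.P179.H875.Perm2

/-!
# ALLB, module Y2: summands of `k ⊕ free`

A direct summand of a permutation module `k ⊕ free` of a finite `p`-group `P` is free or
`k ⊕ free`; in the second case the identity is the sum of a trace and an idempotent of rank one.
-/

namespace Vale.P179.H175

open Finset Module
open scoped Classical

variable {p : ℕ} [hp : Fact p.Prime] {k : Type*} [Field k] [CharP k p]
  {P : Type*} [Group P] [Fintype P] {V M T : Type*} [AddCommGroup V] [Module k V]
  [AddCommGroup M] [Module k M] [Fintype T]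

/-- the sum of the conjugates of the projection to orbit representatives -/
theorem sum_repr_proj (rep : P →* Module.End k M) (b : Basis (Option T) k M)
    (hb : ∀ x i, ∃ j, rep x (b i) = b j) (h0 : ∀ x, rep x (b none) = b none)
    (hfree : ∀ x, x ≠ 1 → ∀ i, rep x (b (some i)) ≠ b (some i)) :
    ∃ h : Module.End k M, (∀ i : T, ∑ x : P, rep x (h (rep x⁻¹ (b (some i)))) = b (some i)) ∧
      ∑ x : P, rep x (h (rep x⁻¹ (b none))) = 0 := by
  let _ := Vale.P179.H875.Perm.idxAct rep b hb
  have hrep : ∀ x i, rep x (b i) = b (x • i) := Vale.P179.H875.Perm.rep_idx rep b hb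
  have hnone : ∀ x : P, x • (none : Option T) = none := fun x =>
    b.injective (by rw [← hrep, h0])
  have hsm : ∀ (x : P) (i : T), x • (some i : Option T) = some i → x = 1 := by
    intro x i hi
    by_contra hx
    exact hfree x hx i (by rw [hrep, hi])
  let o : Option T → Option T := fun i =>
    (Quotient.mk (MulAction.orbitRel P (Option T)) i).out
  have ho : ∀ (x : P) (i : Option T), o (x • i) = o i := by
    intro x i
    change (Quotient.mk (MulAction.orbitRel P (Option T)) (x • i)).out =
      (Quotient.mk (MulAction.orbitRel P (Option T)) i).out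
    congr 1
    exact Quotient.sound ⟨x, rfl⟩
  have ho' : ∀ i : Option T, ∃ x : P, x • i = o i := by
    intro i
    have h1 : (Quotient.mk (MulAction.orbitRel P (Option T)) (o i)) =
      (Quotient.mk (MulAction.orbitRel P (Option T)) i) := Quotient.out_eq _
    exact Quotient.exact h1
  let h : Module.End k M := b.constr k fun i => if o i = i ∧ i ≠ none then b i else 0
  have hh : ∀ i, h (b i) = if o i = i ∧ i ≠ none then b i else 0 := fun i =>
    b.constr_basis k _ i
  refine ⟨h, fun i => ?_, ?_⟩
  · obtain ⟨y, hy⟩ := ho' (some i)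
    have hyn : o (some i) ≠ none := by
      intro h1
      rw [h1] at hy
      have : (some i : Option T) = y⁻¹ • (none : Option T) := by rw [← hy, inv_smul_smul]
      rw [hnone] at this
      exact Option.some_ne_none _ this
    have key : ∀ x : P, rep x (h (rep x⁻¹ (b (some i)))) =
        if x = y⁻¹ then b (some i) else 0 := by
      intro x
      rw [hrep, hh]
      by_cases hx : x = y⁻¹
      · rw [if_pos hx, hx, inv_inv, hy, if_pos, hrep, ← hy, inv_smul_smul]
        refine ⟨?_, hyn⟩
        rw [← hy, ho, hy]
      · rw [if_neg hx, if_neg, map_zero]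
        rintro ⟨h1, -⟩
        apply hx
        rw [ho] at h1
        have h2 : (x * y) • (some i : Option T) = (some i : Option T) := by
          rw [mul_smul, hy, h1, smul_inv_smul]
        exact eq_inv_of_mul_eq_one_left (hsm _ _ h2)
    rw [Finset.sum_congr rfl fun x _ => key x, Finset.sum_ite_eq' univ, if_pos (mem_univ _)]
  · refine Finset.sum_eq_zero fun x _ => ?_
    rw [hrep, hnone, hh, if_neg (by simp), map_zero]

/-- **summands of `k ⊕ free`** -/
theorem summand_dichotomy (hP : IsPGroup p P) (σ : P →* Module.End k V)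
    (rep : P →* Module.End k M) (θ : Basis (Option T) k M)
    (hθ : ∀ x i, ∃ j, rep x (θ i) = θ j) (h0 : ∀ x, rep x (θ none) = θ none)
    (hfree : ∀ x, x ≠ 1 → ∀ i, rep x (θ (some i)) ≠ θ (some i))
    (α : V →ₗ[k] M) (β : M →ₗ[k] V) (hβα : ∀ v, β (α v) = v)
    (hα : ∀ x v, α (σ x v) = rep x (α v)) (hβ : ∀ x m, β (rep x m) = σ x (β m)) :
    Fintype.card P ∣ finrank k V ∨
    ∃ h f : Module.End k V, (∀ v, f v = ∑ x : P, σ x (h (σ x⁻¹ v))) ∧ (∀ v, f (f v) = f v) ∧
      finrank k (LinearMap.range (1 - f)) = 1 := by
  obtain ⟨b, hb1, hb2⟩ := Vale.P179.H875.Perm.exchange hP rep θ hθ (α ∘ₗ β)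
    (fun v => by
      change α (β (α (β v))) = α (β v)
      rw [hβα])
    (fun x v => by
      change α (β (rep x v)) = rep x (α (β v))
      rw [hβ, hα])
  have hb : ∀ x i, ∃ j, rep x (b i) = b j := fun x i => by
    obtain ⟨j, hj⟩ := hθ x i
    exact ⟨j, (hb1 x i j).1 hj⟩
  have hb0 : ∀ x, rep x (b none) = b none := fun x => (hb1 x _ _).1 (h0 x)
  have hbf : ∀ x, x ≠ 1 → ∀ i, rep x (b (some i)) ≠ b (some i) := fun x hx i h =>
    hfree x hx i ((hb1 x _ _).2 h)
  -- the basis of `V`
  let S := {i : Option T // (α ∘ₗ β) (b i) = b i}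
  let c : S → V := fun i => β (b i.1)
  have hαc : ∀ i, α (c i) = b i.1 := fun i => i.2
  have hcli : LinearIndependent k c := by
    have h1 : LinearIndependent k (fun i : S => b i.1) :=
      b.linearIndependent.comp _ Subtype.val_injective
    refine LinearIndependent.of_comp α ?_
    convert h1 using 1
    funext i
    exact hαc i
  have hcsp : ⊤ ≤ Submodule.span k (Set.range c) := by
    intro v _
    rw [← hβα v, ← b.sum_repr (α v), map_sum]
    refine Submodule.sum_mem _ fun i _ => ?_
    rw [map_smul]
    refine Submodule.smul_mem _ _ ?_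
    rcases hb2 i with h1 | h1
    · exact Submodule.subset_span ⟨⟨i, h1⟩, rfl⟩
    · have h2 : β (b i) = 0 := by
        have h3 := congrArg β h1
        change β (α (β (b i))) = _ at h3
        rwa [hβα, map_zero] at h3
      rw [h2]
      exact Submodule.zero_mem _
  let C : Basis S k V := Basis.mk hcli hcsp
  have hC : ∀ i, C i = β (b i.1) := fun i => by rw [Basis.mk_apply]
  obtain ⟨h, hh1, hh2⟩ := sum_repr_proj rep b hb hb0 hbf
  let h' : Module.End k V := β ∘ₗ h ∘ₗ α
  let f : Module.End k V := ∑ x : P, σ x * h' * σ x⁻¹
  have hf : ∀ v, f v = ∑ x : P, σ x (h' (σ x⁻¹ v)) := fun v => by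
    rw [LinearMap.sum_apply]
    rfl
  have hfβ : ∀ i : S, f (C i) = β (∑ x : P, rep x (h (rep x⁻¹ (b i.1)))) := by
    intro i
    rw [hf, map_sum]
    refine Finset.sum_congr rfl fun x _ => ?_
    change σ x (β (h (α (σ x⁻¹ (C i))))) = _
    rw [hα, hC, hβ]
    congr 4
    exact i.2
  have hf1 : ∀ i : S, i.1 ≠ none → f (C i) = C i := by
    rintro ⟨_ | i, hi⟩ hne
    · exact absurd rfl hne
    · rw [hfβ, hh1, hC]
  by_cases hS : (α ∘ₗ β) (b none) = b none
  · right
    have hf0 : f (C ⟨none, hS⟩) = 0 := by rw [hfβ, hh2, map_zero]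
    refine ⟨h', f, hf, fun v => ?_, ?_⟩
    · have h1 : f ∘ₗ f = f := by
        refine C.ext fun i => ?_
        change f (f (C i)) = f (C i)
        by_cases hi : i.1 = none
        · have : i = ⟨none, hS⟩ := Subtype.ext hi
          rw [this, hf0, map_zero]
        · rw [hf1 i hi, hf1 i hi]
      exact LinearMap.congr_fun h1 v
    · have h1 : LinearMap.range (1 - f) = Submodule.span k {C ⟨none, hS⟩} := by
        apply le_antisymm
        · rintro _ ⟨v, rfl⟩
          rw [← C.sum_repr v, map_sum]
          refine Submodule.sum_mem _ fun i _ => ?_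
          rw [map_smul]
          refine Submodule.smul_mem _ _ ?_
          rw [LinearMap.sub_apply, Module.End.one_apply]
          by_cases hi : i.1 = none
          · have : i = ⟨none, hS⟩ := Subtype.ext hi
            rw [this, hf0, sub_zero]
            exact Submodule.mem_span_singleton_self _
          · rw [hf1 i hi, sub_self]
            exact Submodule.zero_mem _
        · rw [Submodule.span_singleton_le_iff_mem]
          exact ⟨C ⟨none, hS⟩, by rw [LinearMap.sub_apply, Module.End.one_apply, hf0, sub_zero]⟩
      rw [h1]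
      exact finrank_span_singleton (C.ne_zero _)
  · left
    rw [finrank_eq_card_basis C]
    -- `P` acts freely on `S`
    let act : P → S → S := fun x i => ⟨(hb x i.1).choose, by
      rw [← (hb x i.1).choose_spec]
      change α (β (rep x (b i.1))) = rep x (b i.1)
      rw [hβ, hα]
      exact congrArg _ i.2⟩
    have hact : ∀ x i, b (act x i).1 = rep x (b i.1) := fun x i => (hb x i.1).choose_spec.symm
    let _ : MulAction P S :=
      { smul := act
        one_smul := fun i => Subtype.ext (b.injective (by
          change b (act 1 i).1 = _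
          rw [hact, map_one, Module.End.one_apply]))
        mul_smul := fun x y i => Subtype.ext (b.injective (by
          change b (act (x * y) i).1 = b (act x (act y i)).1
          rw [hact, hact, hact, map_mul, Module.End.mul_apply])) }
    have hsm : ∀ (x : P) (i : S), b (x • i).1 = rep x (b i.1) := hact
    have hfr : ∀ (x : P) (i : S), x • i = i → x = 1 := by
      rintro x ⟨_ | i, hi⟩ hxi
      · exact absurd hi hS
      · by_contra hx
        refine hbf x hx i ?_
        have := hsm x ⟨some i, hi⟩
        rw [hxi] at this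
        exact this.symm
    have h1 := MulAction.card_eq_sum_card_group_div_card_stabilizer P S
    rw [h1]
    refine Finset.dvd_sum fun ω _ => ?_
    have h2 : MulAction.stabilizer P (Quotient.out ω : S) = ⊥ := by
      rw [eq_bot_iff]
      intro x hx
      exact hfr x _ hx
    have h3 : Fintype.card (MulAction.stabilizer P (Quotient.out ω : S)) = 1 := by
      rw [← Nat.card_eq_fintype_card, h2, Subgroup.card_bot]
    rw [h3, Nat.div_one]

end Vale.P179.H175
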