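import Vale.Agent.P179.H175.Y2
import Vale.Agent.P179.H175.Summand
import Vale.Agent.P179.Allb.Defs

/-!
# ALLB, module Y2 in the frozen letters
-/

namespace Vale.P179.H175

open Module Vale.P179.Sgn Vale.P179.H445 Vale.P179.Allb
open scoped TensorProduct

/-- a surjection onto `End V` factors through a surjection onto a matrix algebra with nil
kernel -/
theorem finrank_of_nilker {k Λ V : Type*} [Field k] [Ring Λ] [Algebra k Λ] [AddCommGroup V]
    [Module k V] [FiniteDimensional k V] [Nontrivial V] (φ : Λ →ₐ[k] Module.End k V)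
    (hφ : Function.Surjective φ) {d : ℕ} (φ₁ : Λ →ₐ[k] Matrix (Fin d) (Fin d) k)
    (hφ₁ : Function.Surjective φ₁) (hnil : ∀ a, φ₁ a = 0 → IsNilpotent a) :
    finrank k V = d ∧ ∀ a, φ a = 0 → IsNilpotent a := by
  classical
  -- the kernels
  have hker : ∀ a, φ₁ a = 0 → φ a = 0 := by
    intro a ha
    by_contra hne
    obtain ⟨v, hv⟩ : ∃ v, φ a v ≠ 0 := by
      by_contra hcon
      push Not at hcon
      exact hne (LinearMap.ext hcon)
    obtain ⟨T, hT⟩ : ∃ T : Module.End k V, T (φ a v) = v :=
      by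
        obtain ⟨f, hf⟩ : ∃ f : Module.Dual k V, f (φ a v) ≠ 0 := by
          by_contra hcon
          push Not at hcon
          exact hv ((Module.forall_dual_apply_eq_zero_iff k _).1 hcon)
        exact ⟨f.smulRight ((f (φ a v))⁻¹ • v), by
          rw [LinearMap.smulRight_apply, smul_smul, mul_inv_cancel₀ hf, one_smul]⟩
    obtain ⟨y, rfl⟩ := hφ T
    obtain ⟨n, hn⟩ := hnil (y * a) (by rw [map_mul, ha, mul_zero])
    have h1 : ∀ m : ℕ, (φ (y * a) ^ m) v = v := by
      intro m
      induction m with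
      | zero => rfl
      | succ m ih =>
        rw [pow_succ, Module.End.mul_apply, map_mul, Module.End.mul_apply, hT, ← map_mul, ih]
    have h2 := h1 n
    rw [← map_pow, hn, map_zero, LinearMap.zero_apply] at h2
    rw [← h2, map_zero] at hv
    exact hv rfl
  have hwd : ∀ a b, φ₁ a = φ₁ b → φ a = φ b := fun a b h => by
    rw [← sub_eq_zero, ← map_sub]
    exact hker _ (by rw [map_sub, h, sub_self])
  have hs : ∀ M, φ₁ (Function.surjInv hφ₁ M) = M := Function.surjInv_eq hφ₁
  let g : Matrix (Fin d) (Fin d) k →ₐ[k] Module.End k V :=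
    { toFun := fun M => φ (Function.surjInv hφ₁ M)
      map_one' := by rw [← map_one φ]; exact hwd _ _ (by rw [hs, map_one])
      map_mul' := fun M N => by rw [← map_mul]; exact hwd _ _ (by rw [hs, map_mul, hs, hs])
      map_zero' := by rw [← map_zero φ]; exact hwd _ _ (by rw [hs, map_zero])
      map_add' := fun M N => by rw [← map_add]; exact hwd _ _ (by rw [hs, map_add, hs, hs])
      commutes' := fun c => by
        rw [← AlgHom.commutes φ]; exact hwd _ _ (by rw [hs, AlgHom.commutes]) }
  have hg : Function.Surjective g := fun T => by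
    obtain ⟨a, rfl⟩ := hφ T
    exact ⟨φ₁ a, hwd _ _ (hs _)⟩
  have hd : d ≠ 0 := by
    rintro rfl
    have h1 : (1 : Module.End k V) = 0 := by
      rw [← map_one g, ← map_zero g]
      congr 1
      exact Subsingleton.elim _ _
    exact one_ne_zero h1
  have : Nonempty (Fin d) := ⟨⟨0, Nat.pos_of_ne_zero hd⟩⟩
  have hinj : Function.Injective g := g.toRingHom.injective
  refine ⟨?_, fun a ha => hnil a (hinj (by
    rw [map_zero, ← ha]
    exact hwd _ _ (hs _)))⟩
  have h1 := (LinearEquiv.ofBijective g.toLinearMap ⟨hinj, hg⟩).finrank_eq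
  rw [finrank_matrix, finrank_linearMap, finrank_self, Fintype.card_fin, mul_one] at h1
  exact (Nat.mul_self_inj.1 h1).symm

/-- **module Y2** from the relative data and Y1 -/
theorem y2_of (hE : ENDP) (hY1 : Y1) : Vale.P179.Allb.Y2 := by
  intro p _ k _ _ _ P _ _ _ hP Λ _ _ A hA V _ _ _ _ φ hφ J _ _ r hr α β hβα hα hβ
  classical
  let _ : Fintype P := Fintype.ofFinite P
  have : Fintype A.I := A.fin
  have hfd : FiniteDimensional k Λ := Module.Finite.of_basis A.b
  have htw : TW p P 1 1 := ⟨⟨hP, one_pow _, Nat.coprime_one_left p⟩, fun i _ _ _ => one_dvd i⟩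
  have hgx : GX P P 1 1 (MonoidHom.id P) 1 := by
    refine ⟨fun _ _ h => h, fun x => ?_, one_pow 1, fun x => ⟨x, 0, ?_⟩, ?_⟩
    · rw [one_mul, mul_one]; rfl
    · rw [pow_zero, mul_one]; rfl
    · rw [mul_one]
  obtain ⟨K, hKγ, hKu, -, -, -⟩ := hE p k P 1 1 htw Λ A hA P (MonoidHom.id P) 1 hgx
  have hKu' : ∀ x, K.ι (K.γ x) = A.u x := fun x => by rw [hKγ]; exact hKu x
  obtain ⟨d, φ₁, hφ₁, hnil, -, hd0, -⟩ := hY1 p k P hP Λ A hA
  obtain ⟨hdV, hnilφ⟩ := finrank_of_nilker φ hφ φ₁ hφ₁ hnil
  -- the permutation module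
  obtain ⟨-, -, T, _, θ, hθ0, hθ1, hθ2⟩ := hr
  have hrr : ∀ x, r x * r x⁻¹ = 1 := fun x => by rw [← map_mul, mul_inv_cancel, map_one]
  let rep : P →* Module.End k (Matrix J J k) :=
    { toFun := fun x => LinearMap.mulLeft k (r x) ∘ₗ LinearMap.mulRight k (r x⁻¹)
      map_one' := by ext M; simp
      map_mul' := fun x y => LinearMap.ext fun M => by
        simp only [LinearMap.comp_apply, LinearMap.mulLeft_apply, LinearMap.mulRight_apply,
          Module.End.mul_apply, mul_inv_rev, map_mul, mul_assoc] }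
  have hrep : ∀ x M, rep x M = r x * M * r x⁻¹ := fun x M => by
    change r x * (M * r x⁻¹) = _
    rw [mul_assoc]
  let σ : P →* Module.End k V := (φ : Λ →* Module.End k V).comp A.u
  have hσ : ∀ x, σ x = φ (A.u x) := fun x => rfl
  have hfx : ∀ (x : P) (M : Matrix J J k), rep x M = M → r x * M = M * r x := by
    intro x M h
    rw [hrep] at h
    have h1 := congrArg (· * r x) h
    simp only [mul_assoc] at h1
    rw [← map_mul, inv_mul_cancel, map_one, mul_one] at h1
    exact h1
  have a1 : ∀ (x : P) (i : Option T), ∃ j, rep x (θ i) = θ j := by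
    intro x i
    rcases i with _ | i
    · exact ⟨none, by rw [hrep, hθ0, mul_one, hrr]⟩
    · obtain ⟨j, hj⟩ := hθ1 x i
      exact ⟨some j, by rw [hrep, hj]⟩
  have a2 : ∀ x : P, rep x (θ none) = θ none := fun x => by rw [hrep, hθ0, mul_one, hrr]
  have a3 : ∀ x : P, x ≠ 1 → ∀ i : T, rep x (θ (some i)) ≠ θ (some i) := fun x hx i h =>
    hθ2 x (by rwa [Subgroup.mem_bot]) i (hfx x _ h)
  have a4 : ∀ x v, α (σ x v) = rep x (α v) := fun x v => by rw [hrep, hσ, hα]
  have a5 : ∀ x M, β (rep x M) = σ x (β M) := fun x M => by rw [hrep, hσ, hβ]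
  rcases summand_dichotomy (p := p) hP σ rep θ a1 a2 a3 α β hβα a4 a5 with
    hdiv | ⟨h, f, hf1, hf2, hf3⟩
  · -- `V` free: impossible
    exfalso
    apply hd0
    rw [Fintype.card_fin, ← hdV, CharP.cast_eq_zero_iff k p]
    refine dvd_trans ?_ hdiv
    obtain ⟨n, hn⟩ := IsPGroup.iff_card.1 hP
    rw [← Nat.card_eq_fintype_card, hn]
    refine dvd_pow_self p ?_
    rintro rfl
    rw [pow_zero] at hn
    have := Finite.one_lt_card (α := P)
    omega
  · -- `L = kP`
    let C := Module.finBasis k V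
    let E := LinearMap.toMatrixAlgEquiv C
    let π : Λ →ₐ[k] Matrix (Fin (finrank k V)) (Fin (finrank k V)) k := E.toAlgHom.comp φ
    have hπ : Function.Surjective π := E.surjective.comp hφ
    have hEf : ∀ h : Module.End k V, E (∑ x : P, φ (A.u x) * h * φ (A.u x⁻¹)) =
        ∑ x : P, π (A.u x) * E h * π (A.u x⁻¹) := by
      intro h
      rw [map_sum]
      exact Finset.sum_congr rfl fun x _ => by rw [map_mul, map_mul]; rfl
    have hff : f = ∑ x : P, φ (A.u x) * h * φ (A.u x⁻¹) := by
      refine LinearMap.ext fun v => ?_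
      rw [hf1, LinearMap.sum_apply]
      rfl
    have hsurj : Function.Surjective K.ι := by
      refine y2 (p := p) hP K.γ K.ι K.span π hπ (fun x hx => ?_) (fun z hz => ?_) (E h) ?_ ?_
        K.s K.t K.st K.sep
      · -- nil kernel
        exact hnilφ x (E.injective (by rw [map_zero]; exact hx))
      · refine A.loc z fun x => ?_
        rw [← hKu' x]
        exact hz x
      · have h1 : f * f = f := LinearMap.ext hf2
        simp only [hKu']
        rw [← hEf, ← hff, ← map_mul, h1]
      · simp only [hKu']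
        rw [← hEf, ← hff, ← map_one E, ← map_sub]
        rw [Matrix.rank_eq_finrank_range_toLin _ C C]
        have h1 : Matrix.toLin C C (E (1 - f)) = 1 - f := Matrix.toLin_toMatrix C C (1 - f)
        rw [h1]
        exact hf3
    have hinj : Function.Injective K.ι := fun a b hab => by
      rw [← K.rel.ret a, hab, K.rel.ret]
    have h1 := (LinearEquiv.ofBijective K.ι.toLinearMap ⟨hinj, hsurj⟩).finrank_eq
    have h2 : finrank k (MonoidAlgebra k P) = Nat.card P := by
      rw [(MonoidAlgebra.coeffLinearEquiv k (M := P) (S := k)).finrank_eq,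
        Module.finrank_finsupp_self, Nat.card_eq_fintype_card]
    have h3 : A.cnt ⊥ = Nat.card A.I := by
      unfold PX.cnt
      refine Nat.card_congr (Equiv.subtypeUnivEquiv fun i x hx => ?_)
      rw [Subgroup.mem_bot.1 hx, map_one, one_mul, mul_one]
    rw [h3, Nat.card_eq_fintype_card, ← finrank_eq_card_basis A.b, ← h1, h2]

end Vale.P179.H175
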