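import Vale.Agent.P179.H445.Twist

/-!
# ALLB, module TRF: a trace functional with value one

`L` is an algebra with relative data in Higman form over an algebra `A` spanned by a finite group
`P` with `|P| = 0` in `K`.  The trace of the left multiplication on `L / L ι(I)` (`I` the
augmentation ideal) has value one at `1`.
-/

namespace Vale.P179.H175

open Module Vale.P179.H445

variable {K A L P : Type*} [Field K] [Ring A] [Algebra K A] [Ring L] [Algebra K L]
  [Group P] [Fintype P] {γ : P →* A} {ι : A →ₐ[K] L} {ρ : L →ₗ[K] A} {θ : L →ₗ[K] L}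

/-- **TRF** -/
theorem trf [FiniteDimensional K L] (hcard : (Fintype.card P : K) = 0) (R : Rel γ ι ρ θ)
    (hspan : Submodule.span K (Set.range γ) = ⊤) (aug : A →ₐ[K] K)
    (haug : ∀ g, aug (γ g) = 1) :
    ∃ φ : L →ₗ[K] K, (∀ a b, φ (a * b) = φ (b * a)) ∧ (∀ x, IsNilpotent x → φ x = 0) ∧
      φ 1 = 1 := by
  classical
  let N : Submodule K L := Submodule.span K {x | ∃ (b : L) (g : P), x = b * (ι (γ g) - 1)}
  have hN : ∀ a : L, N ≤ N.comap (LinearMap.mulLeft K a) := by
    intro a
    refine Submodule.span_le.2 ?_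
    rintro _ ⟨b, g, rfl⟩
    exact Submodule.subset_span ⟨a * b, g, by rw [LinearMap.mulLeft_apply, mul_assoc]⟩
  let lm : L →ₗ[K] Module.End K (L ⧸ N) :=
    { toFun := fun a => N.mapQ N (LinearMap.mulLeft K a) (hN a)
      map_add' := fun a b => by
        refine Submodule.linearMap_qext _ (LinearMap.ext fun x => ?_)
        simp [Submodule.mapQ_apply, add_mul]
      map_smul' := fun c a => by
        refine Submodule.linearMap_qext _ (LinearMap.ext fun x => ?_)
        simp [Submodule.mapQ_apply] }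
  have hlm : ∀ a b, lm a (N.mkQ b) = N.mkQ (a * b) := fun a b => rfl
  have lm_mul : ∀ a b, lm (a * b) = lm a * lm b := fun a b => by
    refine Submodule.linearMap_qext _ (LinearMap.ext fun x => ?_)
    change lm (a * b) (N.mkQ x) = lm a (lm b (N.mkQ x))
    rw [hlm, hlm, hlm, mul_assoc]
  have lm_one : lm 1 = 1 := by
    refine Submodule.linearMap_qext _ (LinearMap.ext fun x => ?_)
    change lm 1 (N.mkQ x) = N.mkQ x
    rw [hlm, one_mul]
  -- right multiplication is trivial on the quotient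
  have hr : ∀ (b : L) (g : P), N.mkQ (b * ι (γ g)) = N.mkQ b := by
    intro b g
    rw [← sub_eq_zero, ← map_sub, Submodule.mkQ_apply, Submodule.Quotient.mk_eq_zero]
    exact Submodule.subset_span ⟨b, g, by rw [mul_sub, mul_one]⟩
  have ha : ∀ a : A, N.mkQ (ι a) = aug a • N.mkQ 1 := by
    intro a
    have haa : a ∈ Submodule.span K (Set.range γ) := by rw [hspan]; trivial
    induction haa using Submodule.span_induction with
    | mem x hx =>
      obtain ⟨g, rfl⟩ := hx
      rw [haug, one_smul]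
      have := hr 1 g
      rwa [one_mul] at this
    | zero => rw [map_zero, map_zero, map_zero, zero_smul]
    | add x y _ _ hx hy => rw [map_add, map_add, map_add, add_smul, hx, hy]
    | smul c x _ hx => rw [map_smul, map_smul, map_smul, hx, smul_assoc]
  -- the functional `q`
  let q : (L ⧸ N) →ₗ[K] K := N.liftQ (aug.toLinearMap ∘ₗ ρ) (by
    refine Submodule.span_le.2 ?_
    rintro _ ⟨b, g, rfl⟩
    change aug (ρ (b * (ι (γ g) - 1))) = 0
    rw [mul_sub, mul_one, map_sub, R.right, map_sub, map_mul, haug, mul_one, sub_self])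
  have hq : ∀ b, q (N.mkQ b) = aug (ρ b) := fun b => rfl
  -- the map `H`
  let H : (L ⧸ N) →ₗ[K] (L ⧸ N) :=
    N.liftQ (∑ y : P, N.mkQ ∘ₗ θ ∘ₗ LinearMap.mulRight K (ι (γ y))) (by
      refine Submodule.span_le.2 ?_
      rintro _ ⟨b, g, rfl⟩
      change (∑ y : P, N.mkQ ∘ₗ θ ∘ₗ LinearMap.mulRight K (ι (γ y))) (b * (ι (γ g) - 1)) = 0
      rw [LinearMap.sum_apply]
      have h1 : ∀ y : P, (N.mkQ ∘ₗ θ ∘ₗ LinearMap.mulRight K (ι (γ y))) (b * (ι (γ g) - 1)) =
          N.mkQ (θ (b * ι (γ (g * y)))) - N.mkQ (θ (b * ι (γ y))) := by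
        intro y
        change N.mkQ (θ (b * (ι (γ g) - 1) * ι (γ y))) = _
        rw [mul_sub, mul_one, sub_mul, map_sub, map_sub, mul_assoc b, ← map_mul, ← map_mul]
      rw [Finset.sum_congr rfl fun y _ => h1 y, Finset.sum_sub_distrib, sub_eq_zero]
      exact Fintype.sum_bijective (fun y => g * y) (Group.mulLeft_bijective g) _ _ fun y => rfl)
  have hH : ∀ b, H (N.mkQ b) = ∑ y : P, N.mkQ (θ (b * ι (γ y))) := by
    intro b
    change (∑ y : P, N.mkQ ∘ₗ θ ∘ₗ LinearMap.mulRight K (ι (γ y))) b = _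
    rw [LinearMap.sum_apply]
    rfl
  -- the key identity
  have key : (1 : Module.End K (L ⧸ N)) = (q.smulRight (N.mkQ 1)) +
      ∑ x : P, lm (ι (γ x)) * (H * lm (ι (γ x⁻¹))) := by
    refine Submodule.linearMap_qext _ (LinearMap.ext fun b => ?_)
    change N.mkQ b = (q.smulRight (N.mkQ 1) + ∑ x : P, lm (ι (γ x)) * (H * lm (ι (γ x⁻¹))))
      (N.mkQ b)
    rw [LinearMap.add_apply, LinearMap.smulRight_apply, hq, ← ha, LinearMap.sum_apply]
    have h1 : ∀ x : P, (lm (ι (γ x)) * (H * lm (ι (γ x⁻¹)))) (N.mkQ b) =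
        ∑ y : P, N.mkQ (ι (γ x) * θ (ι (γ x⁻¹) * b * ι (γ y)) * ι (γ y⁻¹)) := by
      intro x
      change lm (ι (γ x)) (H (lm (ι (γ x⁻¹)) (N.mkQ b))) = _
      rw [hlm, hH, map_sum]
      refine Finset.sum_congr rfl fun y _ => ?_
      rw [hlm, hr]
    rw [Finset.sum_congr rfl fun x _ => h1 x]
    simp only [← map_sum]
    rw [R.hig b, ← map_add, add_sub_cancel]
  refine ⟨LinearMap.trace K (L ⧸ N) ∘ₗ lm, fun a b => ?_, fun x hx => ?_, ?_⟩
  · rw [LinearMap.comp_apply, LinearMap.comp_apply, lm_mul, lm_mul, LinearMap.trace_mul_comm]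
  · have h1 : IsNilpotent (lm x) := by
      obtain ⟨n, hn⟩ := hx
      refine ⟨n, ?_⟩
      have h2 : ∀ m : ℕ, lm (x ^ m) = lm x ^ m := by
        intro m
        induction m with
        | zero => rw [pow_zero, pow_zero, lm_one]
        | succ m ih => rw [pow_succ, pow_succ, lm_mul, ih]
      rw [← h2, hn, map_zero]
    exact (LinearMap.isNilpotent_trace_of_isNilpotent h1).eq_zero
  · rw [LinearMap.comp_apply, lm_one, key, map_add, map_sum]
    have h1 : ∀ x : P, LinearMap.trace K (L ⧸ N) (lm (ι (γ x)) * (H * lm (ι (γ x⁻¹)))) =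
        LinearMap.trace K (L ⧸ N) H := by
      intro x
      rw [LinearMap.trace_mul_comm, mul_assoc, ← lm_mul, ← map_mul, ← map_mul, inv_mul_cancel,
        map_one, map_one, lm_one, mul_one]
    rw [Finset.sum_congr rfl fun x _ => h1 x, Finset.sum_const, Finset.card_univ, nsmul_eq_mul,
      hcard, zero_mul, add_zero, LinearMap.trace_smulRight, hq]
    have h2 := R.ret 1
    rw [map_one] at h2
    rw [h2, map_one]

end Vale.P179.H175
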