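import Vale.Agent.P179.H175.GrBasic
import Vale.Agent.P179.Sgn.Defs

/-!
# MODULE GR: the `ℚ`-grading defined by an automorphism and the basic idempotents
-/

namespace Vale.P179.H175

open Module

/-- **module GR** -/
theorem gr : Vale.P179.Sgn.GR := by
  intro K B _ _ _ _ _ l hl0 hl g
  obtain ⟨φ, hφ, hφl⟩ := exists_hom_rat (Units.mk0 l hl0) (by
    rw [orderOf_eq_zero_iff']
    intro n hn h
    refine hl n hn ?_
    have := congrArg Units.val h
    simpa using this)
  have hφ1 : φ 1 = 0 := by have := hφ 1 1; rw [mul_one] at this; linarith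
  have hφn : ∀ n : ℕ, φ ((Units.mk0 l hl0) ^ n) = n := by
    intro n
    induction n with
    | zero => simpa using hφ1
    | succ n ih => rw [pow_succ, hφ, ih, hφl]; push_cast; ring
  have hJ : Homog (autW g φ) (radK K B) := by
    refine homog_of_stable g φ hφ fun x hx => ?_
    have : RingHomSurjective (g : B →+* B) := ⟨g.surjective⟩
    have := Ring.le_comap_jacobson (g : B →+* B) hx
    simpa using this
  obtain ⟨n, E, hE⟩ := exists_basic (autW_grAlg g φ hφ) hJ
  refine ⟨autW g φ, radK K B, n, E, hE, fun w h hh => ?_⟩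
  have := mem_autW_of_eigen g φ (a := (Units.mk0 l hl0) ^ w) (x := h) (by simpa using hh)
  rwa [hφn] at this

end Vale.P179.H175
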