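import Vale.Agent.P179.H175.Gr1

/-!
# Graded modules over a graded algebra: components, corners, the ideal `J`
-/

namespace Vale.P179.H175

open Module

variable {K : Type*} [Field K]

/-- a basis of a subspace modulo a smaller one -/
theorem exists_rel_basis {X : Type*} [AddCommGroup X] [Module K X] [FiniteDimensional K X]
    {Q P : Submodule K X} (h : Q ≤ P) :
    ∃ (n : ℕ) (b : Fin n → X), (∀ i, b i ∈ P) ∧ (∀ c : Fin n → K, ∑ i, c i • b i ∈ Q → c = 0) ∧
      (∀ x ∈ P, ∃ c : Fin n → K, x - ∑ i, c i • b i ∈ Q) ∧ finrank K P = finrank K Q + n := by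
  obtain ⟨C, hC⟩ := Submodule.exists_isCompl (Q.comap P.subtype)
  let B := finBasis K C
  refine ⟨finrank K C, fun i => ((B i : P) : X), fun i => (B i : P).2, ?_, ?_, ?_⟩
  · intro c hc
    have h1 : (∑ i, c i • B i : C) = 0 := by
      have h2 : ((∑ i, c i • B i : C) : P) ∈ Q.comap P.subtype := by
        rw [Submodule.mem_comap]
        simpa using hc
      have h3 := Submodule.disjoint_def.1 hC.disjoint _ h2 (Subtype.mem _)
      exact Subtype.ext h3
    have := Fintype.linearIndependent_iff.1 B.linearIndependent c h1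
    exact funext this
  · intro x hx
    have h1 : (⟨x, hx⟩ : P) ∈ Q.comap P.subtype ⊔ C := by
      rw [hC.codisjoint.eq_top]; trivial
    obtain ⟨q, hq, c, hc, hqc⟩ := Submodule.mem_sup.1 h1
    refine ⟨fun i => B.repr ⟨c, hc⟩ i, ?_⟩
    have h2 : ∑ i, B.repr ⟨c, hc⟩ i • ((B i : P) : X) = (c : X) := by
      have h3 : ((∑ i, B.repr ⟨c, hc⟩ i • B i : C) : X) = (c : X) := by
        rw [B.sum_repr ⟨c, hc⟩]
      rw [← h3]
      simp only [Submodule.coe_sum, Submodule.coe_smul]
    rw [h2]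
    have h3 : x - (c : X) = (q : X) := by
      have := congrArg (fun z : P => (z : X)) hqc
      simp only [Submodule.coe_add] at this
      rw [← this]; abel
    rw [h3]
    exact hq
  · have h1 := Submodule.finrank_add_eq_of_isCompl hC
    have h2 : finrank K (Q.comap P.subtype) = finrank K Q :=
      LinearEquiv.finrank_eq (Submodule.comapSubtypeEquivOfLe h)
    rw [← h1, h2]

section alg

variable {A : Type*} [Ring A] [Algebra K A] {W : ℚ → Submodule K A}
  {X : Type*} [AddCommGroup X] [Module K X] [Module A X] [IsScalarTower K A X]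
  {V : ℚ → Submodule K X}

omit [IsScalarTower K A X] in
theorem GrMod.cpt_smul (hX : GrMod W V) {a : A} {s : ℚ} (ha : a ∈ W s) (x : X) (t : ℚ) :
    cpt V t (a • x) = a • cpt V (t - s) x := by
  obtain ⟨S, hS0, hS⟩ := sum_cpt_finsupp hX.int x
  have h1 : a • x = ∑ r ∈ S, a • cpt V r x := by
    conv_lhs => rw [← hS]
    rw [Finset.smul_sum]
  rw [h1, map_sum]
  have h2 : ∀ r ∈ S, cpt V t (a • cpt V r x) = if r = t - s then a • cpt V r x else 0 := by
    intro r _
    have hm : a • cpt V r x ∈ V (s + r) := hX.smul ha (cpt_mem hX.int r x)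
    split_ifs with h
    · subst h
      rw [show s + (t - s) = t by ring] at hm
      exact cpt_of_mem hX.int hm
    · refine cpt_of_mem_ne hX.int hm fun h' => h ?_
      rw [← h']; ring
  rw [Finset.sum_congr rfl h2, Finset.sum_ite_eq' S (t - s) fun r => a • cpt V r x]
  split_ifs with h
  · rfl
  · rw [hS0 _ h, smul_zero]

omit [IsScalarTower K A X] in
theorem GrMod.cpt_smul' (hA : GrAlg W) (hX : GrMod W V) (a : A) {x : X} {s : ℚ} (hx : x ∈ V s)
    (t : ℚ) : cpt V t (a • x) = cpt W (t - s) a • x := by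
  obtain ⟨S, hS0, hS⟩ := sum_cpt_finsupp hA.int a
  have h1 : a • x = ∑ r ∈ S, cpt W r a • x := by
    conv_lhs => rw [← hS]
    rw [Finset.sum_smul]
  rw [h1, map_sum]
  have h2 : ∀ r ∈ S, cpt V t (cpt W r a • x) = if r = t - s then cpt W r a • x else 0 := by
    intro r _
    have hm : cpt W r a • x ∈ V (r + s) := hX.smul (cpt_mem hA.int r a) hx
    split_ifs with h
    · subst h
      rw [show t - s + s = t by ring] at hm
      exact cpt_of_mem hX.int hm
    · refine cpt_of_mem_ne hX.int hm fun h' => h ?_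
      rw [← h']; ring
  rw [Finset.sum_congr rfl h2, Finset.sum_ite_eq' S (t - s) fun r => cpt W r a • x]
  split_ifs with h
  · rfl
  · rw [hS0 _ h, zero_smul]

theorem GrAlg.grMod (hA : GrAlg W) : GrMod W W :=
  ⟨hA.int, fun ha hx => hA.mul ha hx⟩

theorem GrAlg.cpt_mul (hA : GrAlg W) {a : A} {s : ℚ} (ha : a ∈ W s) (x : A) (t : ℚ) :
    cpt W t (a * x) = a * cpt W (t - s) x :=
  hA.grMod.cpt_smul ha x t

theorem GrAlg.cpt_mul' (hA : GrAlg W) (a : A) {x : A} {s : ℚ} (hx : x ∈ W s) (t : ℚ) :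
    cpt W t (a * x) = cpt W (t - s) a * x :=
  GrMod.cpt_smul' hA hA.grMod a hx t

theorem mem_cor1 {ε : A} {x : X} : x ∈ cor1 K X ε ↔ ε • x = x := Iff.rfl

theorem mem_cor2 {ε η x : A} : x ∈ cor2 K ε η ↔ ε * x = x ∧ x * η = x := Iff.rfl

theorem GrMod.homog_cor1 (hX : GrMod W V) {ε : A} (hε : ε ∈ W 0) : Homog V (cor1 K X ε) := by
  intro x hx r
  have h := hX.cpt_smul hε x r
  rw [sub_zero, mem_cor1.1 hx] at h
  exact mem_cor1.2 h.symm

theorem GrAlg.homog_cor2 (hA : GrAlg W) {ε η : A} (hε : ε ∈ W 0) (hη : η ∈ W 0) :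
    Homog W (cor2 K ε η) := by
  intro x hx r
  have h := hA.cpt_mul hε x r
  rw [sub_zero, hx.1] at h
  have h' := hA.cpt_mul' x hη r
  rw [sub_zero, hx.2] at h'
  exact ⟨h.symm, h'.symm⟩

omit [IsScalarTower K A X] in
theorem GrMod.homog_spn (hA : GrAlg W) (hX : GrMod W V) {J : Submodule K A} (hJ : Homog W J)
    {Y : Submodule K X} (hY : Homog V Y) : Homog V (spn J Y) := by
  refine homog_span ?_
  rintro _ ⟨j, hj, y, hy, rfl⟩ r
  obtain ⟨S, -, hS⟩ := sum_cpt_finsupp hA.int j
  have h1 : j • y = ∑ s ∈ S, cpt W s j • y := by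
    conv_lhs => rw [← hS]
    rw [Finset.sum_smul]
  rw [h1, map_sum]
  refine Submodule.sum_mem _ fun s _ => ?_
  rw [hX.cpt_smul (cpt_mem hA.int s j)]
  exact Submodule.subset_span ⟨_, hJ j hj s, _, hY y hy _, rfl⟩

omit [IsScalarTower K A X] in
theorem smul_mem_spn {J : Submodule K A} {Y : Submodule K X} {j : A} {y : X} (hj : j ∈ J)
    (hy : y ∈ Y) : j • y ∈ spn J Y := Submodule.subset_span ⟨j, hj, y, hy, rfl⟩

omit [IsScalarTower K A X] in
theorem spn_le {J : Submodule K A} {Y Z : Submodule K X} (h : ∀ j ∈ J, ∀ y ∈ Y, j • y ∈ Z) :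
    spn J Y ≤ Z := by
  refine Submodule.span_le.2 ?_
  rintro _ ⟨j, hj, y, hy, rfl⟩
  exact h j hj y hy

omit [IsScalarTower K A X] in
theorem spn_mono {J : Submodule K A} {Y Z : Submodule K X} (h : Y ≤ Z) : spn J Y ≤ spn J Z :=
  spn_le fun _ hj _ hy => smul_mem_spn hj (h hy)

theorem spn_stable {J : Submodule K A} (hJ : ∀ (a : A), ∀ j ∈ J, a * j ∈ J) {Y : Submodule K X}
    (a : A) {y : X} (hy : y ∈ spn J Y) : a • y ∈ spn J Y := by
  unfold spn at hy
  induction hy using Submodule.span_induction with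
  | mem x hx =>
    obtain ⟨j, hj, y, hy, rfl⟩ := hx
    rw [← mul_smul]
    exact smul_mem_spn (hJ a j hj) hy
  | zero => rw [smul_zero]; exact zero_mem _
  | add x y _ _ hx hy => rw [smul_add]; exact add_mem hx hy
  | smul c x _ hx => rw [smul_algebra_smul_comm]; exact Submodule.smul_mem _ _ hx

theorem spn_spn_le {J J' : Submodule K A} {Y : Submodule K X} :
    spn J (spn J' Y) ≤ spn (J * J') Y := by
  refine spn_le fun j hj y hy => ?_
  unfold spn at hy
  induction hy using Submodule.span_induction with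
  | mem z hz =>
    obtain ⟨j', hj', y', hy', rfl⟩ := hz
    rw [← mul_smul]
    exact smul_mem_spn (Submodule.mul_mem_mul hj hj') hy'
  | zero => rw [smul_zero]; exact zero_mem _
  | add x y _ _ hx hy => rw [smul_add]; exact add_mem hx hy
  | smul c x _ hx => rw [smul_algebra_smul_comm]; exact Submodule.smul_mem _ _ hx

/-- iterated `J Y` -/
theorem spn_pow {J : Submodule K A} (n : ℕ) {Y : Submodule K X} :
    (spn J)^[n] Y ≤ spn (J ^ n) Y := by
  induction n with
  | zero =>
    intro y hy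
    have h1 : (1 : A) ∈ J ^ 0 := by rw [pow_zero]; exact Submodule.one_le.1 le_rfl
    have := smul_mem_spn (X := X) h1 hy
    rwa [one_smul] at this
  | succ n ih =>
    rw [Function.iterate_succ_apply', pow_succ']
    exact (spn_mono ih).trans spn_spn_le

omit [IsScalarTower K A X] in
theorem spn_bot (Y : Submodule K X) : spn (⊥ : Submodule K A) Y = ⊥ := by
  refine le_bot_iff.1 (spn_le fun j hj y _ => ?_)
  rw [(Submodule.mem_bot K).1 hj, zero_smul]
  exact zero_mem _

end alg

end Vale.P179.H175
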