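import Vale.Agent.P179.H175.GrDefs

/-!
# Components and graded dimensions
-/

namespace Vale.P179.H175

open Module

variable {K : Type*} [Field K] {X : Type*} [AddCommGroup X] [Module K X]
  {V : ℚ → Submodule K X}

theorem cpt_eq (hV : DirectSum.IsInternal V) (r : ℚ) (x : X) :
    cpt V r x =
      ((LinearEquiv.ofBijective (DirectSum.coeLinearMap V) hV).symm x r : X) := by
  classical
  unfold cpt
  rw [dif_pos hV]
  rfl

theorem cpt_mem (hV : DirectSum.IsInternal V) (r : ℚ) (x : X) : cpt V r x ∈ V r := by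
  rw [cpt_eq hV]
  exact Subtype.mem _

theorem cpt_of_mem (hV : DirectSum.IsInternal V) {r : ℚ} {x : X} (hx : x ∈ V r) :
    cpt V r x = x := by
  classical
  rw [cpt_eq hV]
  have : (LinearEquiv.ofBijective (DirectSum.coeLinearMap V) hV).symm x =
      DirectSum.of (fun r => V r) r ⟨x, hx⟩ := by
    rw [LinearEquiv.symm_apply_eq]
    exact (DirectSum.coeLinearMap_of V r ⟨x, hx⟩).symm
  rw [this, DirectSum.of_eq_same]

theorem cpt_of_mem_ne (hV : DirectSum.IsInternal V) {r s : ℚ} {x : X} (hx : x ∈ V s)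
    (h : s ≠ r) : cpt V r x = 0 := by
  classical
  rw [cpt_eq hV]
  have : (LinearEquiv.ofBijective (DirectSum.coeLinearMap V) hV).symm x =
      DirectSum.of (fun r => V r) s ⟨x, hx⟩ := by
    rw [LinearEquiv.symm_apply_eq]
    exact (DirectSum.coeLinearMap_of V s ⟨x, hx⟩).symm
  rw [this, DirectSum.of_eq_of_ne _ _ _ (Ne.symm h)]
  rfl

theorem supp_finite [FiniteDimensional K X] (hV : DirectSum.IsInternal V) :
    {r | V r ≠ ⊥}.Finite :=
  WellFoundedGT.finite_ne_bot_of_iSupIndep hV.submodule_iSupIndep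

/-- the finite set of degrees -/
noncomputable def sup [FiniteDimensional K X] (hV : DirectSum.IsInternal V) : Finset ℚ :=
  (supp_finite hV).toFinset

theorem mem_sup [FiniteDimensional K X] {hV : DirectSum.IsInternal V} {r : ℚ} :
    r ∈ sup hV ↔ V r ≠ ⊥ := by
  simp [sup]

theorem cpt_eq_zero_of_notMem [FiniteDimensional K X] (hV : DirectSum.IsInternal V) {r : ℚ}
    (h : r ∉ sup hV) (x : X) : cpt V r x = 0 := by
  have h1 : V r = ⊥ := by
    by_contra h'
    exact h (mem_sup.2 h')
  have h2 := cpt_mem hV r x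
  rw [h1] at h2
  simpa using h2

theorem sum_cpt_finsupp (hV : DirectSum.IsInternal V) (x : X) :
    ∃ S : Finset ℚ, (∀ r ∉ S, cpt V r x = 0) ∧ ∑ r ∈ S, cpt V r x = x := by
  classical
  set E := LinearEquiv.ofBijective (DirectSum.coeLinearMap V) hV
  refine ⟨DFinsupp.support (E.symm x), fun r hr => ?_, ?_⟩
  · rw [cpt_eq hV]
    have := DFinsupp.notMem_support_iff.1 hr
    change ((E.symm x) r : X) = 0
    rw [this]
    rfl
  · have h1 : x = E (E.symm x) := (E.apply_symm_apply x).symm
    conv_rhs => rw [h1]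
    change _ = DirectSum.coeLinearMap V (E.symm x)
    rw [DirectSum.coeLinearMap_eq_dfinsuppSum, DFinsupp.sum]
    exact Finset.sum_congr rfl fun r _ => cpt_eq hV r x

theorem sum_cpt [FiniteDimensional K X] (hV : DirectSum.IsInternal V) (x : X) :
    ∑ r ∈ sup hV, cpt V r x = x := by
  classical
  obtain ⟨S, hS, hx⟩ := sum_cpt_finsupp hV x
  calc ∑ r ∈ sup hV, cpt V r x = ∑ r ∈ sup hV ∪ S, cpt V r x :=
        Finset.sum_subset Finset.subset_union_left fun r _ hr => cpt_eq_zero_of_notMem hV hr x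
    _ = ∑ r ∈ S, cpt V r x :=
        (Finset.sum_subset Finset.subset_union_right fun r _ hr => hS r hr).symm
    _ = x := hx

/-- a characterisation of components -/
theorem cpt_unique (hV : DirectSum.IsInternal V) (S : Finset ℚ) (f : ℚ → X)
    (hf : ∀ r ∈ S, f r ∈ V r) {r : ℚ} :
    cpt V r (∑ s ∈ S, f s) = if r ∈ S then f r else 0 := by
  classical
  rw [map_sum]
  split_ifs with h
  · rw [Finset.sum_eq_single r]
    · exact cpt_of_mem hV (hf r h)
    · intro s hs hsr
      exact cpt_of_mem_ne hV (hf s hs) hsr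
    · exact fun h' => absurd h h'
  · exact Finset.sum_eq_zero fun s hs => cpt_of_mem_ne hV (hf s hs) fun h' => h (h' ▸ hs)

theorem cpt_cpt (hV : DirectSum.IsInternal V) (r s : ℚ) (x : X) :
    cpt V r (cpt V s x) = if s = r then cpt V s x else 0 := by
  split_ifs with h
  · subst h
    exact cpt_of_mem hV (cpt_mem hV s x)
  · exact cpt_of_mem_ne hV (cpt_mem hV s x) h

theorem ext_cpt (hV : DirectSum.IsInternal V) {x y : X} (h : ∀ r, cpt V r x = cpt V r y) :
    x = y := by
  classical
  have h0 : ∀ r, cpt V r (x - y) = 0 := fun r => by rw [map_sub, h, sub_self]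
  obtain ⟨S, -, hS⟩ := sum_cpt_finsupp hV (x - y)
  rw [Finset.sum_eq_zero fun r _ => h0 r] at hS
  exact sub_eq_zero.1 hS.symm

theorem homog_iff_mem (hV : DirectSum.IsInternal V) {U : Submodule K X} (hU : Homog V U)
    {x : X} : x ∈ U ↔ ∀ r, cpt V r x ∈ U := by
  refine ⟨fun h r => hU x h r, fun h => ?_⟩
  obtain ⟨S, -, hS⟩ := sum_cpt_finsupp hV x
  rw [← hS]
  exact Submodule.sum_mem _ fun r _ => h r

theorem Homog.inf {U U' : Submodule K X} (h : Homog V U) (h' : Homog V U') :
    Homog V (U ⊓ U') := fun x hx r => ⟨h x hx.1 r, h' x hx.2 r⟩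

theorem Homog.sup {U U' : Submodule K X} (h : Homog V U) (h' : Homog V U') :
    Homog V (U ⊔ U') := by
  intro x hx r
  obtain ⟨y, hy, z, hz, rfl⟩ := Submodule.mem_sup.1 hx
  rw [map_add]
  exact Submodule.add_mem_sup (h y hy r) (h' z hz r)

theorem Homog.top : Homog V (⊤ : Submodule K X) := fun _ _ _ => trivial

theorem Homog.bot : Homog V (⊥ : Submodule K X) := by
  intro x hx r
  rw [(Submodule.mem_bot K).1 hx, map_zero]
  exact zero_mem _

theorem homog_deg (hV : DirectSum.IsInternal V) (s : ℚ) : Homog V (V s) := by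
  intro x hx r
  by_cases h : s = r
  · subst h; exact cpt_mem hV _ _
  · rw [cpt_of_mem_ne hV hx h]; exact zero_mem _

/-- spans of sets stable under components are homogeneous -/
theorem homog_span {S : Set X} (h : ∀ x ∈ S, ∀ r, cpt V r x ∈ Submodule.span K S) :
    Homog V (Submodule.span K S) := by
  intro x hx r
  induction hx using Submodule.span_induction with
  | mem x hx => exact h x hx r
  | zero => rw [map_zero]; exact zero_mem _
  | add x y _ _ hx hy => rw [map_add]; exact add_mem hx hy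
  | smul c x _ hx => rw [map_smul]; exact Submodule.smul_mem _ _ hx

section gd

variable [FiniteDimensional K X]

theorem gd_eq_sum (hV : DirectSum.IsInternal V) (U : Submodule K X) :
    gd V U = ∑ r ∈ H175.sup hV, AddMonoidAlgebra.single r (finrank K ↥(U ⊓ V r) : ℤ) := by
  classical
  refine finsum_eq_sum_of_support_subset _ fun s hs => ?_
  by_contra h
  have h2 : V s = ⊥ := by
    by_contra h'
    exact h (mem_sup.2 h')
  refine hs ?_
  have : finrank K ↥(U ⊓ V s) = 0 := by rw [h2, inf_bot_eq]; exact finrank_bot K X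
  simp [this]

theorem coeff_gd (hV : DirectSum.IsInternal V) (U : Submodule K X) (r : ℚ) :
    (gd V U).coeff r = (finrank K ↥(U ⊓ V r) : ℤ) := by
  classical
  rw [gd_eq_sum hV, AddMonoidAlgebra.coeff_sum, Finsupp.finsetSum_apply]
  by_cases hr : r ∈ H175.sup hV
  · rw [Finset.sum_eq_single r]
    · rw [AddMonoidAlgebra.coeff_single, Finsupp.single_eq_same]
    · intro s _ hs
      rw [AddMonoidAlgebra.coeff_single, Finsupp.single_eq_of_ne (Ne.symm hs)]
    · exact fun h => absurd hr h
  · have h2 : V r = ⊥ := by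
      by_contra h'
      exact hr (mem_sup.2 h')
    have : finrank K ↥(U ⊓ V r) = 0 := by rw [h2, inf_bot_eq]; exact finrank_bot K X
    rw [this, Finset.sum_eq_zero fun s hs => ?_]
    · rfl
    · rw [AddMonoidAlgebra.coeff_single, Finsupp.single_eq_of_ne]
      rintro rfl
      exact hr hs

omit [FiniteDimensional K X] in
theorem gd_bot : gd V (⊥ : Submodule K X) = 0 := by
  have : ∀ r, finrank K ↥((⊥ : Submodule K X) ⊓ V r) = 0 := fun r => by
    rw [bot_inf_eq]; exact finrank_bot K X
  simp [gd, this]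

end gd

end Vale.P179.H175
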