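import Vale.Agent.P179.H175.GrAut

/-!
# Primitive idempotents of degree zero stay primitive
-/

namespace Vale.P179.H175

open Module Polynomial

variable {K : Type*} [Field K] {A : Type*} [Ring A] [Algebra K A]

/-- Fitting's lemma for an element -/
theorem exists_fit [FiniteDimensional K A] (y : A) :
    ∃ (q : K[X]) (n : ℕ), (y * aeval y q) * (y * aeval y q) = y * aeval y q ∧
      y ^ n * (1 - y * aeval y q) = 0 := by
  classical
  have hm0 : minpoly K y ≠ 0 := minpoly.ne_zero (Algebra.IsIntegral.isIntegral y)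
  obtain ⟨g, hg, hgX⟩ := exists_eq_pow_rootMultiplicity_mul_and_not_dvd (minpoly K y) hm0 0
  set s := rootMultiplicity 0 (minpoly K y)
  rw [C_0, sub_zero] at hg hgX
  have hXg : IsCoprime (X : K[X]) g := (prime_X.coprime_iff_not_dvd).2 hgX
  obtain ⟨u, v, huv⟩ := hXg.pow_left (m := s + 1)
  have hy : y * aeval y (u * X ^ s) = aeval y (u * X ^ (s + 1)) := by
    have : u * X ^ (s + 1) = X * (u * X ^ s) := by ring
    rw [this, map_mul (aeval y) X, aeval_X]
  have h1 : u * X ^ (s + 1) - 1 = -(v * g) := by linear_combination huv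
  refine ⟨u * X ^ s, s, ?_, ?_⟩
  · rw [hy, ← map_mul, ← sub_eq_zero, ← map_sub]
    have h2 : (u * X ^ (s + 1)) * (u * X ^ (s + 1)) - u * X ^ (s + 1) =
        (X ^ s * g) * (-(u * X * v)) := by
      calc (u * X ^ (s + 1)) * (u * X ^ (s + 1)) - u * X ^ (s + 1) =
          u * X ^ (s + 1) * (u * X ^ (s + 1) - 1) := by ring
        _ = (X ^ s * g) * (-(u * X * v)) := by rw [h1]; ring
    rw [h2, ← hg, map_mul, minpoly.aeval, zero_mul]
  · have h3 : y ^ s * (1 - y * aeval y (u * X ^ s)) = aeval y (X ^ s * (1 - u * X ^ (s + 1))) := by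
      rw [hy, map_mul (aeval y) (X ^ s), map_sub, map_one, map_pow, aeval_X]
    have h4 : X ^ s * (1 - u * X ^ (s + 1)) = (X ^ s * g) * v := by
      have : 1 - u * X ^ (s + 1) = v * g := by linear_combination -huv
      rw [this]; ring
    rw [h3, h4, ← hg, map_mul, minpoly.aeval, zero_mul]

/-- the semisimple quotient -/
theorem exists_pi_matrix [IsAlgClosed K] [FiniteDimensional K A] :
    ∃ (m : ℕ) (d : Fin m → ℕ) (π : A →ₐ[K] Π i, Matrix (Fin (d i)) (Fin (d i)) K),
      Function.Surjective π ∧ ∀ x, π x = 0 ↔ x ∈ Ring.jacobson A := by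
  have := IsArtinianRing.of_finite K A
  have hss : IsSemisimpleRing (A ⧸ Ring.jacobson A) := inferInstance
  obtain ⟨m, d, _, ⟨E⟩⟩ :=
    IsSemisimpleRing.exists_algEquiv_pi_matrix_of_isAlgClosed K (A ⧸ Ring.jacobson A)
  refine ⟨m, d, E.toAlgHom.comp (Ideal.Quotient.mkₐ K (Ring.jacobson A)), ?_, ?_⟩
  · exact E.surjective.comp (Ideal.Quotient.mkₐ_surjective K _)
  · intro x
    change E (Ideal.Quotient.mk _ x) = 0 ↔ _
    rw [map_eq_zero_iff E E.injective, Ideal.Quotient.eq_zero_iff_mem]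

/-- the trace form detects the radical -/
theorem mem_jacobson_of_trace [FiniteDimensional K A] {m : ℕ} {d : Fin m → ℕ}
    (π : A →ₐ[K] Π i, Matrix (Fin (d i)) (Fin (d i)) K) (hπ : Function.Surjective π)
    (hJ : ∀ x, π x = 0 ↔ x ∈ Ring.jacobson A) {t : A}
    (ht : ∀ a k, Matrix.trace (π (t * a) k) = 0) : t ∈ Ring.jacobson A := by
  classical
  rw [← hJ]
  funext k
  ext i j
  obtain ⟨a, ha⟩ := hπ (Pi.single k (Matrix.single j i 1))
  have h1 := ht a k
  rw [map_mul, ha, Pi.mul_apply, Pi.single_eq_same, Matrix.trace_mul_single] at h1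
  simpa using h1

/-- nilpotent elements have trace zero -/
theorem trace_of_nilpotent {m : ℕ} {d : Fin m → ℕ}
    (π : A →ₐ[K] Π i, Matrix (Fin (d i)) (Fin (d i)) K) {t : A} (ht : IsNilpotent t) (k : Fin m) :
    Matrix.trace (π t k) = 0 := by
  have h1 : IsNilpotent (π t k) := by
    obtain ⟨n, hn⟩ := ht
    refine ⟨n, ?_⟩
    rw [← Pi.pow_apply, ← map_pow, hn, map_zero, Pi.zero_apply]
  exact (Matrix.isNilpotent_trace_of_isNilpotent h1).eq_zero

/-- primitive idempotents of the degree zero part -/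
structure Prim (W : ℚ → Submodule K A) (ε : A) : Prop where
  deg : ε ∈ W 0
  idem : ε * ε = ε
  ne : ε ≠ 0
  prim : ∀ f ∈ W 0, f * f = f → ε * f = f → f * ε = f → f = 0 ∨ f = ε

variable {W : ℚ → Submodule K A}

theorem GrAlg.pow_mem (hW : GrAlg W) {r : ℚ} {x : A} (hx : x ∈ W r) (n : ℕ) :
    x ^ n ∈ W (n * r) := by
  induction n with
  | zero => simpa using hW.one
  | succ n ih =>
    rw [pow_succ]
    have := hW.mul ih hx
    rwa [show ((n + 1 : ℕ) : ℚ) * r = n * r + r by push_cast; ring]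

theorem GrAlg.aeval_mem (hW : GrAlg W) {x : A} (hx : x ∈ W 0) (q : K[X]) : aeval x q ∈ W 0 := by
  rw [aeval_eq_sum_range]
  refine Submodule.sum_mem _ fun i _ => Submodule.smul_mem _ _ ?_
  have := hW.pow_mem hx i
  rwa [mul_zero] at this

/-- homogeneous elements of nonzero degree are nilpotent -/
theorem GrAlg.nilpotent_of_ne [FiniteDimensional K A] (hW : GrAlg W) {r : ℚ} (hr : r ≠ 0) {x : A}
    (hx : x ∈ W r) : IsNilpotent x := by
  classical
  have hfin := supp_finite hW.int
  have hinj : Function.Injective fun n : ℕ => (n : ℚ) * r := fun m n h => by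
    have := mul_right_cancel₀ hr h
    exact_mod_cast this
  obtain ⟨n, hn⟩ : ∃ n : ℕ, (n : ℚ) * r ∉ {s | W s ≠ ⊥} := by
    by_contra h
    push Not at h
    exact Set.infinite_range_of_injective hinj (hfin.subset (by rintro _ ⟨n, rfl⟩; exact h n))
  refine ⟨n, ?_⟩
  have h1 := hW.pow_mem hx n
  have h2 : W (n * r) = ⊥ := by
    by_contra h
    exact hn h
  rw [h2] at h1
  simpa using h1

/-- elements of the corner of degree zero are nilpotent or units of the corner -/
theorem Prim.nil_or_unit [FiniteDimensional K A] (hW : GrAlg W) {ε : A} (hε : Prim W ε) {y : A}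
    (hy : y ∈ W 0) (hy1 : ε * y = y) (hy2 : y * ε = y) :
    IsNilpotent y ∨ ∃ z, y * z = ε ∧ z * y = ε := by
  obtain ⟨q, n, h1, h2⟩ := exists_fit (K := K) y
  have hc : aeval y q * y = y * aeval y q := by
    have h3 : aeval y (q * X) = aeval y (X * q) := by rw [mul_comm]
    rwa [map_mul, map_mul, aeval_X] at h3
  have hm : y * aeval y q ∈ W 0 := by
    have := hW.mul hy (hW.aeval_mem hy q)
    rwa [zero_add] at this
  rcases hε.prim (y * aeval y q) hm h1 (by rw [← mul_assoc, hy1])
    (by rw [← hc, mul_assoc, hy2]) with h | h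
  · left
    rw [h, sub_zero, mul_one] at h2
    exact ⟨n, h2⟩
  · right
    exact ⟨aeval y q, h, by rw [hc, h]⟩

/-- an eigenvalue in the corner -/
theorem Prim.exists_scalar [IsAlgClosed K] [FiniteDimensional K A] (hW : GrAlg W) {ε : A}
    (hε : Prim W ε) {x : A} (hx : x ∈ W 0) (hx1 : ε * x = x) (hx2 : x * ε = x) :
    ∃ c : K, IsNilpotent (x - c • ε) := by
  classical
  -- left multiplication on the corner `ε A`
  let U : Submodule K A := cor1 K A ε
  let L : Module.End K U :=
    { toFun := fun u => ⟨x * u, by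
        change ε * (x * u) = x * u
        rw [← mul_assoc, hx1]⟩
      map_add' := fun u v => Subtype.ext (mul_add _ _ _)
      map_smul' := fun c u => Subtype.ext (mul_smul_comm _ _ _) }
  have hU : Nontrivial U := ⟨⟨⟨ε, hε.idem⟩, 0, fun h => hε.ne (congrArg Subtype.val h)⟩⟩
  obtain ⟨c, hc⟩ := Module.End.exists_eigenvalue L
  obtain ⟨u, hu⟩ := hc.exists_hasEigenvector
  refine ⟨c, ?_⟩
  have h1 : x * (u : A) = c • (u : A) := congrArg Subtype.val hu.apply_eq_smul
  have h2 : (u : A) ≠ 0 := fun h => hu.2 (Subtype.ext h)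
  have h3 : ε * (u : A) = u := u.2
  have hy0 : x - c • ε ∈ W 0 := sub_mem hx (Submodule.smul_mem _ _ hε.deg)
  rcases hε.nil_or_unit hW hy0 (by rw [mul_sub, hx1, mul_smul_comm, hε.idem])
    (by rw [sub_mul, hx2, smul_mul_assoc, hε.idem]) with h | ⟨z, -, hz⟩
  · exact h
  · exfalso
    have h4 : (x - c • ε) * (u : A) = 0 := by
      rw [sub_mul, h1, smul_mul_assoc, h3, sub_self]
    have h5 : ε * (u : A) = 0 := by rw [← hz, mul_assoc, h4, mul_zero]
    rw [h3] at h5
    exact h2 h5

/-- a nilpotent element of the corner has no one sided inverse in the corner -/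
theorem not_unit_of_nilpotent {ε s z : A} (h0 : ε ≠ 0) (hs1 : ε * s = s)
    (hs : IsNilpotent s) (h : z * s = ε) : False := by
  obtain ⟨n, hn⟩ := hs
  have h1 : ∀ m : ℕ, z ^ m * (ε * s ^ m) = ε := by
    intro m
    induction m with
    | zero => simp
    | succ m ih =>
      have h2 : ε * s ^ (m + 1) = ε * (s * s ^ m) := by rw [pow_succ']
      have h3 : ε * (s * s ^ m) = s * s ^ m := by rw [← mul_assoc, hs1]
      calc z ^ (m + 1) * (ε * s ^ (m + 1)) = z ^ m * (z * (s * s ^ m)) := by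
            rw [h2, h3, pow_succ, mul_assoc]
        _ = z ^ m * ((z * s) * s ^ m) := by rw [mul_assoc]
        _ = z ^ m * (ε * s ^ m) := by rw [h]
        _ = ε := ih
  have := h1 n
  rw [hn, mul_zero, mul_zero] at this
  exact h0 this.symm

/-- **primitive idempotents of degree zero**: `ε A ε = K ε + J` -/
theorem Prim.diag [IsAlgClosed K] [FiniteDimensional K A] (hW : GrAlg W) {ε : A}
    (hε : Prim W ε) (a : A) : ∃ c : K, ε * a * ε - c • ε ∈ Ring.jacobson A := by
  classical
  obtain ⟨m, d, π, hπ, hJ⟩ := exists_pi_matrix (K := K) (A := A)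
  -- the nilpotent homogeneous elements of the corner
  let S : Set A := {x | ε * x = x ∧ x * ε = x ∧ IsNilpotent x ∧ ∃ r, x ∈ W r}
  have hSmul : ∀ s ∈ S, ∀ t ∈ S, s * t ∈ S := by
    rintro s ⟨hs1, hs2, hs3, r, hs4⟩ t ⟨ht1, ht2, ht3, r', ht4⟩
    have hst := hW.mul hs4 ht4
    have e1 : ε * (s * t) = s * t := by rw [← mul_assoc, hs1]
    have e2 : s * t * ε = s * t := by rw [mul_assoc, ht2]
    refine ⟨e1, e2, ?_, _, hst⟩
    by_cases h : r + r' = 0
    · rw [h] at hst
      rcases hε.nil_or_unit hW hst e1 e2 with h' | ⟨z, -, hz⟩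
      · exact h'
      · exact (not_unit_of_nilpotent hε.ne ht1 ht3
          (by rw [← mul_assoc] at hz; exact hz)).elim
    · exact hW.nilpotent_of_ne h hst
  have hspanmul : ∀ t ∈ Submodule.span K S, ∀ s ∈ Submodule.span K S,
      t * s ∈ Submodule.span K S := by
    intro t ht s hs
    have := Submodule.mul_mem_mul ht hs
    rw [Submodule.span_mul_span] at this
    refine Submodule.span_mono ?_ this
    rintro _ ⟨x, hx, y, hy, rfl⟩
    exact hSmul x hx y hy
  have hcor : ∀ x, ε * x = x → x * ε = x → ∃ c : K, x - c • ε ∈ Submodule.span K S := by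
    intro x hx1 hx2
    have hx0h := hW.homog_cor2 hε.deg hε.deg x ⟨hx1, hx2⟩
    obtain ⟨c, hc⟩ := hε.exists_scalar hW (cpt_mem hW.int 0 x) (hx0h 0).1 (hx0h 0).2
    refine ⟨c, ?_⟩
    have h1 : x - c • ε = (cpt W 0 x - c • ε) + ∑ r ∈ (H175.sup hW.int).erase 0, cpt W r x := by
      have h2 := sum_cpt hW.int x
      by_cases h0 : (0 : ℚ) ∈ H175.sup hW.int
      · rw [← Finset.add_sum_erase _ _ h0] at h2
        conv_lhs => rw [← h2]
        abel
      · rw [Finset.erase_eq_of_notMem h0, h2, cpt_eq_zero_of_notMem hW.int h0, zero_sub]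
        abel
    rw [h1]
    refine add_mem (Submodule.subset_span ⟨?_, ?_, hc, 0, ?_⟩)
      (Submodule.sum_mem _ fun r hr => Submodule.subset_span ⟨(hx0h r).1, (hx0h r).2, ?_, r,
        cpt_mem hW.int r x⟩)
    · rw [mul_sub, (hx0h 0).1, mul_smul_comm, hε.idem]
    · rw [sub_mul, (hx0h 0).2, smul_mul_assoc, hε.idem]
    · exact sub_mem (cpt_mem hW.int 0 x) (Submodule.smul_mem _ _ hε.deg)
    · exact hW.nilpotent_of_ne (Finset.ne_of_mem_erase hr) (cpt_mem hW.int r x)
  have htr : ∀ t ∈ Submodule.span K S, ∀ k, Matrix.trace (π t k) = 0 := by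
    intro t ht k
    induction ht using Submodule.span_induction with
    | mem x hx => exact trace_of_nilpotent π hx.2.2.1 k
    | zero => rw [map_zero, Pi.zero_apply, Matrix.trace_zero]
    | add x y _ _ hx hy => rw [map_add, Pi.add_apply, Matrix.trace_add, hx, hy, add_zero]
    | smul c x _ hx => rw [map_smul, Pi.smul_apply, Matrix.trace_smul, hx, smul_zero]
  have hfix : ∀ t ∈ Submodule.span K S, ε * t = t ∧ t * ε = t := by
    intro t ht
    induction ht using Submodule.span_induction with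
    | mem x hx => exact ⟨hx.1, hx.2.1⟩
    | zero => exact ⟨mul_zero _, zero_mul _⟩
    | add x y _ _ hx hy => exact ⟨by rw [mul_add, hx.1, hy.1], by rw [add_mul, hx.2, hy.2]⟩
    | smul c x _ hx => exact ⟨by rw [mul_smul_comm, hx.1], by rw [smul_mul_assoc, hx.2]⟩
  have hmem : ∀ t ∈ Submodule.span K S, t ∈ Ring.jacobson A := by
    intro t ht
    refine mem_jacobson_of_trace π hπ hJ fun b k => ?_
    obtain ⟨h1, h2⟩ := hfix t ht
    -- `trace (t b) = trace (t (ε b ε))`
    have h3 : Matrix.trace (π (t * b) k) = Matrix.trace (π (t * (ε * b * ε)) k) := by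
      have e1 : t * (ε * b * ε) = (t * b) * ε := by
        rw [← mul_assoc, ← mul_assoc, h2]
      have e2 : Matrix.trace (π ((t * b) * ε) k) = Matrix.trace (π (ε * (t * b)) k) := by
        rw [map_mul π (t * b) ε, map_mul π ε (t * b), Pi.mul_apply, Pi.mul_apply,
          Matrix.trace_mul_comm]
      rw [e1, e2, ← mul_assoc, h1]
    rw [h3]
    obtain ⟨c, hc⟩ := hcor (ε * b * ε) (by rw [← mul_assoc, ← mul_assoc, hε.idem])
      (by rw [mul_assoc, hε.idem])
    have h4 : t * (ε * b * ε) = t * (ε * b * ε - c • ε) + c • t := by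
      rw [mul_sub, mul_smul_comm, h2]
      abel
    rw [h4]
    exact htr _ (add_mem (hspanmul t ht _ hc) (Submodule.smul_mem _ _ ht)) k
  obtain ⟨c, hc⟩ := hcor (ε * a * ε) (by rw [← mul_assoc, ← mul_assoc, hε.idem])
    (by rw [mul_assoc, hε.idem])
  exact ⟨c, hmem _ hc⟩

end Vale.P179.H175
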