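import Vale.Agent.P179.H175.L1

/-!
# The grading of a finite dimensional algebra defined by an automorphism
-/

namespace Vale.P179.H175

open Module

/-- homomorphisms to the divisible group `ℚ` -/
theorem exists_hom_rat {M : Type*} [CommGroup M] (l : M) (hl : orderOf l = 0) :
    ∃ φ : M → ℚ, (∀ a b, φ (a * b) = φ a + φ b) ∧ φ l = 1 := by
  have hB : Module.Baer ℤ ℚ := Module.Baer.of_divisible ℚ
  let f : ℤ →+ Additive M := zmultiplesHom (Additive M) (Additive.ofMul l)
  have hf : Function.Injective f := by
    intro m n hmn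
    have h1 : l ^ m = l ^ n := by
      have : m • Additive.ofMul l = n • Additive.ofMul l := hmn
      simpa [← ofMul_zpow] using this
    exact (injective_zpow_iff_not_isOfFinOrder.2 (orderOf_eq_zero_iff.1 hl)) h1
  obtain ⟨h, hh⟩ := hB.extension_property_addMonoidHom f hf (Int.castAddHom ℚ)
  refine ⟨fun a => h (Additive.ofMul a), fun a b => ?_, ?_⟩
  · change h (Additive.ofMul (a * b)) = _
    rw [ofMul_mul, map_add]
  · have := DFunLike.congr_fun hh 1
    simpa [f] using this

variable {K : Type*} [Field K] {B : Type*} [Ring B] [Algebra K B]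

theorem mul_mem_maxGen (g : B ≃ₐ[K] B) {a b : K} {x y : B}
    (hx : x ∈ Module.End.maxGenEigenspace (g.toLinearMap : Module.End K B) a)
    (hy : y ∈ Module.End.maxGenEigenspace (g.toLinearMap : Module.End K B) b) :
    x * y ∈ Module.End.maxGenEigenspace (g.toLinearMap : Module.End K B) (a * b) := by
  rw [Module.End.mem_maxGenEigenspace] at hx hy ⊢
  obtain ⟨m, hm⟩ := hx
  obtain ⟨n, hn⟩ := hy
  refine ⟨m + n, ?_⟩
  -- double induction
  have key : ∀ (s m n : ℕ) (x y : B), m + n = s →
      (((g.toLinearMap : Module.End K B) - a • (1 : Module.End K B)) ^ m) x = 0 →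
      (((g.toLinearMap : Module.End K B) - b • (1 : Module.End K B)) ^ n) y = 0 →
      (((g.toLinearMap : Module.End K B) - (a * b) • (1 : Module.End K B)) ^ (m + n)) (x * y) = 0 := by
    intro s
    induction s with
    | zero =>
      intro m n x y hmn hx hy
      obtain ⟨rfl, rfl⟩ : m = 0 ∧ n = 0 := by omega
      have : x = 0 := by simpa using hx
      rw [this, zero_mul, map_zero]
    | succ s ih =>
      intro m n x y hmn hx hy
      rcases m with _ | m
      · have : x = 0 := by simpa using hx
        rw [this, zero_mul, map_zero]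
      rcases n with _ | n
      · have : y = 0 := by simpa using hy
        rw [this, mul_zero, map_zero]
      have e1 : ((g.toLinearMap : Module.End K B) - (a * b) • (1 : Module.End K B)) (x * y) =
          ((g.toLinearMap : Module.End K B) - a • (1 : Module.End K B)) x * g y +
            a • (x * ((g.toLinearMap : Module.End K B) - b • (1 : Module.End K B)) y) := by
        simp only [LinearMap.sub_apply, LinearMap.smul_apply, Module.End.one_apply,
          AlgEquiv.toLinearMap_apply, map_mul, sub_mul, smul_mul_assoc, mul_sub, mul_smul_comm,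
          smul_sub, mul_smul]
        abel
      have e2 : (((g.toLinearMap : Module.End K B) - b • (1 : Module.End K B)) ^ (n + 1)) (g y) =
          0 := by
        have hc : Commute ((g.toLinearMap : Module.End K B) - b • (1 : Module.End K B))
            (g.toLinearMap : Module.End K B) := by
          refine Commute.sub_left (Commute.refl _) ?_
          exact (Commute.one_left _).smul_left b
        have h1 := congrArg (fun f : Module.End K B => f y) (hc.pow_left (n + 1)).eq
        simp only [Module.End.mul_apply] at h1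
        rw [hy, map_zero] at h1
        exact h1
      have i1 := ih m (n + 1) (((g.toLinearMap : Module.End K B) - a • (1 : Module.End K B)) x)
        (g y) (by omega) (by rw [← Module.End.mul_apply, ← pow_succ]; exact hx) e2
      have i2 := ih (m + 1) n x (((g.toLinearMap : Module.End K B) - b • (1 : Module.End K B)) y)
        (by omega) hx (by rw [← Module.End.mul_apply, ← pow_succ]; exact hy)
      have e3 : m + 1 + (n + 1) = (m + (n + 1)) + 1 := by ring
      have e4 : m + (n + 1) = m + 1 + n := by ring
      rw [e3, pow_succ, Module.End.mul_apply, e1, map_add, map_smul, i1, e4, i2, smul_zero,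
        add_zero]
  exact key _ m n x y rfl hm hn

/-- the grading by `ℚ` defined by an automorphism and a map `φ : Kˣ → ℚ` -/
def autW (g : B ≃ₐ[K] B) (φ : Kˣ → ℚ) (r : ℚ) : Submodule K B :=
  ⨆ a : {a : Kˣ // φ a = r}, Module.End.maxGenEigenspace (g.toLinearMap : Module.End K B) (a : Kˣ)

theorem mem_autW (g : B ≃ₐ[K] B) (φ : Kˣ → ℚ) (a : Kˣ) {x : B}
    (hx : x ∈ Module.End.maxGenEigenspace (g.toLinearMap : Module.End K B) (a : K)) :
    x ∈ autW g φ (φ a) :=
  Submodule.mem_iSup_of_mem (⟨a, rfl⟩ : {b : Kˣ // φ b = φ a}) hx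

theorem maxGen_zero (g : B ≃ₐ[K] B) :
    Module.End.maxGenEigenspace (g.toLinearMap : Module.End K B) 0 = ⊥ := by
  rw [eq_bot_iff]
  intro x hx
  rw [Module.End.mem_maxGenEigenspace] at hx
  obtain ⟨n, hn⟩ := hx
  rw [zero_smul, sub_zero] at hn
  rw [Submodule.mem_bot]
  induction n with
  | zero => simpa using hn
  | succ n ih =>
    refine ih ?_
    rw [pow_succ', Module.End.mul_apply] at hn
    exact g.injective (by rw [map_zero]; exact hn)

theorem autW_grAlg [IsAlgClosed K] [FiniteDimensional K B] (g : B ≃ₐ[K] B) (φ : Kˣ → ℚ)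
    (hφ : ∀ a b, φ (a * b) = φ a + φ b) : GrAlg (autW g φ) := by
  have h0 : φ 1 = 0 := by have := hφ 1 1; rw [mul_one] at this; linarith
  have hind := Module.End.independent_maxGenEigenspace (g.toLinearMap : Module.End K B)
  have htop := Module.End.iSup_maxGenEigenspace_eq_top (g.toLinearMap : Module.End K B)
  refine ⟨?_, ?_, ?_⟩
  · refine DirectSum.isInternal_submodule_of_iSupIndep_of_iSup_eq_top ?_ ?_
    · intro r
      have h1 : autW g φ r ≤ ⨆ a ∈ {a : K | ∃ u : Kˣ, (u : K) = a ∧ φ u = r},
          Module.End.maxGenEigenspace (g.toLinearMap : Module.End K B) a :=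
        iSup_le fun a => le_iSup₂_of_le (a.1 : K) ⟨a.1, rfl, a.2⟩ le_rfl
      have h2 : (⨆ (s : ℚ) (_ : s ≠ r), autW g φ s) ≤
          ⨆ a ∈ {a : K | ∃ u : Kˣ, (u : K) = a ∧ φ u ≠ r},
            Module.End.maxGenEigenspace (g.toLinearMap : Module.End K B) a := by
        refine iSup₂_le fun s hs => iSup_le fun a => ?_
        refine le_iSup₂_of_le (a.1 : K) ⟨a.1, rfl, ?_⟩ le_rfl
        rw [a.2]; exact hs
      refine Disjoint.mono h1 h2 (hind.disjoint_biSup_biSup ?_)
      rw [Set.disjoint_left]
      rintro a ⟨u, hu, hur⟩ ⟨v, hv, hvr⟩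
      exact hvr (by rw [← hur]; congr 1; exact Units.ext (hv.trans hu.symm))
    · rw [eq_top_iff, ← htop]
      refine iSup_le fun a => ?_
      by_cases ha : a = 0
      · rw [ha, maxGen_zero]; exact bot_le
      · exact le_iSup_of_le (φ (Units.mk0 a ha)) fun x hx => mem_autW g φ (Units.mk0 a ha) hx
  · rw [← h0]
    refine mem_autW g φ 1 ?_
    rw [Module.End.mem_maxGenEigenspace]
    refine ⟨1, ?_⟩
    simp
  · intro r s x y hx hy
    have h1 : ∀ y ∈ autW g φ s, ∀ (a : {a : Kˣ // φ a = r}),
        ∀ x ∈ Module.End.maxGenEigenspace (g.toLinearMap : Module.End K B) (a : Kˣ),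
          x * y ∈ autW g φ (r + s) := by
      intro y hy a x hx
      refine Submodule.iSup_induction _ (motive := fun y => x * y ∈ autW g φ (r + s)) hy ?_ ?_ ?_
      · intro b y hy
        have h2 := mul_mem_maxGen g hx hy
        have h3 := mem_autW g φ (a.1 * b.1) (x := x * y) (by rw [Units.val_mul]; exact h2)
        rwa [hφ, a.2, b.2] at h3
      · rw [mul_zero]; exact zero_mem _
      · intro y y' hy hy'
        rw [mul_add]; exact add_mem hy hy'
    refine Submodule.iSup_induction _ (motive := fun x => x * y ∈ autW g φ (r + s)) hx ?_ ?_ ?_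
    · exact fun a x hx => h1 y hy a x hx
    · rw [zero_mul]; exact zero_mem _
    · intro x x' hx hx'
      rw [add_mul]; exact add_mem hx hx'

/-- eigenvectors are homogeneous -/
theorem mem_autW_of_eigen (g : B ≃ₐ[K] B) (φ : Kˣ → ℚ) {a : Kˣ} {x : B}
    (hx : g x = (a : K) • x) : x ∈ autW g φ (φ a) := by
  refine mem_autW g φ a ?_
  rw [Module.End.mem_maxGenEigenspace]
  refine ⟨1, ?_⟩
  simp [hx]

/-- subspaces stable under the automorphism are homogeneous -/
theorem homog_of_stable [IsAlgClosed K] [FiniteDimensional K B] (g : B ≃ₐ[K] B) (φ : Kˣ → ℚ)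
    (hφ : ∀ a b, φ (a * b) = φ a + φ b) {U : Submodule K B} (hU : ∀ x ∈ U, g x ∈ U) :
    Homog (autW g φ) U := by
  have hA := autW_grAlg g φ hφ
  have htop := Module.End.iSup_maxGenEigenspace_eq_top (g.toLinearMap : Module.End K B)
  have h1 := Submodule.eq_iSup_inf_genEigenspace (f := (g.toLinearMap : Module.End K B)) (p := U)
    ⊤ hU htop
  intro x hx r
  rw [h1] at hx
  refine Submodule.iSup_induction _ (motive := fun x => cpt (autW g φ) r x ∈ U) hx ?_ ?_ ?_
  · rintro a x ⟨hxU, hxa⟩
    by_cases ha : a = 0
    · have : x ∈ Module.End.maxGenEigenspace (g.toLinearMap : Module.End K B) 0 := by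
        rw [← ha]; exact hxa
      rw [maxGen_zero, Submodule.mem_bot] at this
      rw [this, map_zero]
      exact zero_mem _
    · have h2 : x ∈ autW g φ (φ (Units.mk0 a ha)) := mem_autW g φ (Units.mk0 a ha) hxa
      by_cases hr : φ (Units.mk0 a ha) = r
      · rw [← hr, cpt_of_mem hA.int h2]; exact hxU
      · rw [cpt_of_mem_ne hA.int h2 hr]; exact zero_mem _
  · rw [map_zero]; exact zero_mem _
  · intro x y hx hy
    rw [map_add]; exact add_mem hx hy

end Vale.P179.H175
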