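import Vale.Agent.P179.H175.Fit

/-!
# Existence of basic data for a graded algebra over an algebraically closed field
-/

namespace Vale.P179.H175

open Module

variable {K : Type*} [Field K] {A : Type*} [Ring A] [Algebra K A] {W : ℚ → Submodule K A}

/-- every idempotent of degree zero is a sum of primitive ones -/
theorem exists_prim_sum [FiniteDimensional K A] :
    ∀ (d : ℕ) (ε : A), ε ∈ W 0 → ε * ε = ε → finrank K (cor2 K ε ε) ≤ d →
      ∃ l : List A, (∀ c ∈ l, Prim W c) ∧ l.sum = ε := by
  intro d
  induction d with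
  | zero =>
    intro ε hε hεε hd
    refine ⟨[], by simp, ?_⟩
    have h1 : cor2 K ε ε = ⊥ := Submodule.finrank_eq_zero.1 (Nat.le_zero.1 hd)
    have h2 : ε ∈ cor2 K ε ε := ⟨hεε, hεε⟩
    rw [h1, Submodule.mem_bot] at h2
    rw [h2]; rfl
  | succ d ih =>
    intro ε hε hεε hd
    by_cases h0 : ε = 0
    · exact ⟨[], by simp, by rw [h0]; rfl⟩
    by_cases hp : ∀ f ∈ W 0, f * f = f → ε * f = f → f * ε = f → f = 0 ∨ f = ε
    · exact ⟨[ε], by simpa using (⟨hε, hεε, h0, hp⟩ : Prim W ε), by simp⟩
    push Not at hp
    obtain ⟨f, hf, hff, hεf, hfε, hf0, hfne⟩ := hp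
    have hlt : ∀ f : A, f * f = f → ε * f = f → f * ε = f → f ≠ ε →
        finrank K (cor2 K f f) ≤ d := by
      intro f hff hεf hfε hfne
      have hle : cor2 K f f ≤ cor2 K ε ε := fun x hx =>
        ⟨by rw [← hx.1, ← mul_assoc, hεf], by rw [← hx.2, mul_assoc, hfε]⟩
      have hlt : cor2 K f f < cor2 K ε ε := by
        refine lt_of_le_of_ne hle fun h => ?_
        have h1 : ε ∈ cor2 K f f := by rw [h]; exact ⟨hεε, hεε⟩
        exact hfne (by rw [← hfε]; exact h1.1)
      have := Submodule.finrank_lt_finrank_of_lt hlt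
      omega
    obtain ⟨l1, hl1, hs1⟩ := ih f hf hff (hlt f hff hεf hfε hfne)
    have hg : (ε - f) * (ε - f) = ε - f := by
      rw [sub_mul, mul_sub, mul_sub, hεε, hεf, hfε, hff]; abel
    obtain ⟨l2, hl2, hs2⟩ := ih (ε - f) (sub_mem hε hf) hg
      (hlt _ hg (by rw [mul_sub, hεε, hεf]) (by rw [sub_mul, hεε, hfε])
        (fun h => hf0 (by rw [sub_eq_self] at h; exact h)))
    refine ⟨l1 ++ l2, fun c hc => ?_, by rw [List.sum_append, hs1, hs2]; abel⟩
    rcases List.mem_append.1 hc with h | h
    · exact hl1 c h
    · exact hl2 c h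

/-- the radical as a subspace -/
abbrev radK (K A : Type*) [Field K] [Ring A] [Algebra K A] : Submodule K A :=
  (Ring.jacobson A).restrictScalars K

theorem mem_radK {x : A} : x ∈ radK K A ↔ x ∈ Ring.jacobson A := Iff.rfl

theorem radK_pow (n : ℕ) : (radK K A) ^ n ≤ ((Ring.jacobson A) ^ n).restrictScalars K := by
  induction n with
  | zero =>
    intro x _
    change x ∈ Ring.jacobson A ^ 0
    rw [Submodule.pow_zero, Ideal.one_eq_top]
    trivial
  | succ n ih =>
    rw [Submodule.pow_succ, Submodule.pow_succ]
    refine Submodule.mul_le.2 fun x hx y hy => ?_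
    exact Ideal.mul_mem_mul (ih hx) hy

theorem radK_nil [FiniteDimensional K A] : ∃ n : ℕ, (radK K A) ^ n = ⊥ := by
  have := IsArtinianRing.of_finite K A
  obtain ⟨n, hn⟩ := (IsSemiprimaryRing.isNilpotent : IsNilpotent (Ring.jacobson A))
  refine ⟨n, ?_⟩
  rw [eq_bot_iff]
  refine (radK_pow n).trans ?_
  rw [hn]
  exact le_of_eq rfl

/-- idempotents of the radical vanish -/
theorem idem_notMem_rad [FiniteDimensional K A] {ε : A} (h : ε * ε = ε) (h0 : ε ≠ 0) :
    ε ∉ Ring.jacobson A := by
  intro hε
  obtain ⟨n, hn⟩ := radK_nil (K := K) (A := A)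
  have h1 : ∀ m : ℕ, ε ^ (m + 1) = ε := by
    intro m
    induction m with
    | zero => simp
    | succ m ih => rw [pow_succ, ih, h]
  have h2 : ε ^ (n + 1) ∈ (radK K A) ^ (n + 1) := Submodule.pow_mem_pow (radK K A) hε _
  rw [pow_succ, hn, Submodule.bot_mul] at h2
  rw [h1] at h2
  exact h0 (by simpa using h2)

/-- isomorphic primitive idempotents modulo the radical -/
def Eqv (c c' : A) : Prop := ∃ x y : A, c * x * c' = x ∧ c' * y * c = y ∧
  x * y - c ∈ Ring.jacobson A ∧ y * x - c' ∈ Ring.jacobson A

/-- **existence of basic data** -/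
theorem exists_basic [IsAlgClosed K] [FiniteDimensional K A] (hW : GrAlg W)
    (hJ : Homog W (radK K A)) : ∃ (n : ℕ) (E : Fin n → A), Basic W (radK K A) E := by
  classical
  obtain ⟨l, hl, hsum⟩ := exists_prim_sum (finrank K (cor2 K (1 : A) 1)) 1 hW.one
    (mul_one 1) le_rfl
  -- radical calculus
  have hmL : ∀ (a : A), ∀ j ∈ Ring.jacobson A, a * j ∈ Ring.jacobson A := fun a j hj =>
    Ideal.mul_mem_left _ a hj
  have hmR : ∀ (a : A), ∀ j ∈ Ring.jacobson A, j * a ∈ Ring.jacobson A := fun a j hj =>
    Ideal.mul_mem_right a _ hj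
  -- congruences modulo the radical
  have hcong : ∀ {a b c d : A}, a - b ∈ Ring.jacobson A → c - d ∈ Ring.jacobson A →
      a * c - b * d ∈ Ring.jacobson A := by
    intro a b c d h1 h2
    have : a * c - b * d = (a - b) * c + b * (c - d) := by noncomm_ring
    rw [this]
    exact add_mem (hmR _ _ h1) (hmL _ _ h2)
  let s : Setoid {c // c ∈ l} :=
    { r := fun c c' => Eqv c.1 c'.1
      iseqv :=
        { refl := fun c => by
            have h := (hl c.1 c.2).idem
            refine ⟨c.1, c.1, ?_, ?_, ?_, ?_⟩
            · rw [h, h]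
            · rw [h, h]
            · rw [h, sub_self]; exact zero_mem _
            · rw [h, sub_self]; exact zero_mem _
          symm := fun {c c'} h => by
            obtain ⟨x, y, h1, h2, h3, h4⟩ := h
            exact ⟨y, x, h2, h1, h4, h3⟩
          trans := fun {c c' c''} h h' => by
            obtain ⟨x, y, h1, h2, h3, h4⟩ := h
            obtain ⟨x', y', h1', h2', h3', h4'⟩ := h'
            have hc := (hl c.1 c.2).idem
            have hc' := (hl c'.1 c'.2).idem
            have hc'' := (hl c''.1 c''.2).idem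
            have e1 : c.1 * x = x := by rw [← h1, ← mul_assoc, ← mul_assoc, hc]
            have e2 : x * c'.1 = x := by
              conv_lhs => rw [← h1]
              rw [mul_assoc, hc', h1]
            have e3 : c'.1 * y = y := by rw [← h2, ← mul_assoc, ← mul_assoc, hc']
            have e4 : y * c.1 = y := by
              conv_lhs => rw [← h2]
              rw [mul_assoc, hc, h2]
            have e5 : x' * c''.1 = x' := by
              conv_lhs => rw [← h1']
              rw [mul_assoc, hc'', h1']
            have e6 : c''.1 * y' = y' := by rw [← h2', ← mul_assoc, ← mul_assoc, hc'']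
            refine ⟨x * x', y' * y, ?_, ?_, ?_, ?_⟩
            · rw [← mul_assoc, e1, mul_assoc, e5]
            · rw [← mul_assoc, e6, mul_assoc, e4]
            · have h5 : x * x' * (y' * y) - x * c'.1 * y ∈ Ring.jacobson A := by
                have : x * x' * (y' * y) - x * c'.1 * y = x * (x' * y' - c'.1) * y := by
                  noncomm_ring
                rw [this]
                exact hmR _ _ (hmL _ _ h3')
              rw [e2] at h5
              have := add_mem h5 h3
              rwa [sub_add_sub_cancel] at this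
            · have h5 : y' * y * (x * x') - y' * c'.1 * x' ∈ Ring.jacobson A := by
                have : y' * y * (x * x') - y' * c'.1 * x' = y' * (y * x - c'.1) * x' := by
                  noncomm_ring
                rw [this]
                exact hmR _ _ (hmL _ _ h4)
              have e7 : y' * c'.1 = y' := by
                conv_lhs => rw [← h2']
                rw [mul_assoc, hc', h2']
              rw [e7] at h5
              have := add_mem h5 h4'
              rwa [sub_add_sub_cancel] at this } }
  -- nonzero corners modulo the radical give equivalences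
  have hrel : ∀ (c c' : A), Prim W c → Prim W c' → (∃ a, c * a * c' ∉ Ring.jacobson A) →
      Eqv c c' := by
    intro c c' hc hc' ⟨a, ha⟩
    obtain ⟨m, d, π, hπ, hJ⟩ := exists_pi_matrix (K := K) (A := A)
    have h1 : ∃ b k, Matrix.trace (π (c * a * c' * b) k) ≠ 0 := by
      by_contra h
      push Not at h
      exact ha (mem_jacobson_of_trace π hπ hJ h)
    obtain ⟨b, k, hb⟩ := h1
    set x := c * a * c' with hx
    have hx1 : c * x = x := by rw [hx, ← mul_assoc, ← mul_assoc, hc.idem]
    have hx2 : x * c' = x := by rw [hx, mul_assoc, hc'.idem]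
    obtain ⟨μ, hμ⟩ := hc.diag hW (x * b)
    -- the scalar is nonzero
    have hμ0 : μ ≠ 0 := by
      rintro rfl
      rw [zero_smul, sub_zero] at hμ
      have h2 := (hJ _).2 hμ
      have h3 : Matrix.trace (π (x * b) k) = Matrix.trace (π (c * (x * b) * c) k) := by
        rw [← mul_assoc, hx1, map_mul π (x * b) c, Pi.mul_apply, Matrix.trace_mul_comm,
          ← Pi.mul_apply, ← map_mul, ← mul_assoc, hx1]
      rw [h2, Pi.zero_apply, Matrix.trace_zero] at h3
      exact hb h3
    set y := μ⁻¹ • (c' * b * c) with hy
    have hy1 : c' * y * c = y := by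
      rw [hy, mul_smul_comm, smul_mul_assoc]
      congr 1
      rw [← mul_assoc, ← mul_assoc, hc'.idem, mul_assoc, hc.idem]
    have hxy : x * y - c ∈ Ring.jacobson A := by
      have h2 : x * y - c = μ⁻¹ • (c * (x * b) * c - μ • c) := by
        rw [hy, mul_smul_comm, smul_sub, smul_smul, inv_mul_cancel₀ hμ0, one_smul]
        congr 2
        rw [← mul_assoc, ← mul_assoc, hx2, ← mul_assoc, hx1]
      rw [h2]
      exact (radK K A).smul_mem _ hμ
    have hyc' : c' * (y * x) * c' = y * x := by
      rw [← mul_assoc, mul_assoc (c' * y) x c', hx2]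
      have : c' * y = y := by
        conv_rhs => rw [← hy1]
        conv_lhs => rw [← hy1]
        rw [← mul_assoc, ← mul_assoc, hc'.idem]
      rw [this]
    obtain ⟨ν, hν⟩ := hc'.diag hW (y * x)
    rw [hyc'] at hν
    -- `ν = 1`
    have hν1 : ν = 1 := by
      have h2 : x * (y * x) - x ∈ Ring.jacobson A := by
        have : x * (y * x) - x = (x * y - c) * x := by
          rw [sub_mul, hx1, mul_assoc x y x]
        rw [this]
        exact hmR _ _ hxy
      have h3 : x * (y * x) - ν • x ∈ Ring.jacobson A := by
        have : x * (y * x) - ν • x = x * (y * x - ν • c') := by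
          rw [mul_sub, mul_smul_comm, hx2]
        rw [this]
        exact hmL _ _ hν
      have h4 : (ν - 1) • x ∈ radK K A := by
        have := sub_mem h2 h3
        have e : x * (y * x) - x - (x * (y * x) - ν • x) = (ν - 1) • x := by
          rw [sub_smul, one_smul]; abel
        rwa [e] at this
      by_contra hne
      have h5 := (radK K A).smul_mem (ν - 1)⁻¹ h4
      rw [smul_smul, inv_mul_cancel₀ (sub_ne_zero.2 hne), one_smul] at h5
      exact ha h5
    rw [hν1, one_smul] at hν
    exact ⟨x, y, by rw [hx1, hx2], hy1, hxy, hν⟩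
  have hfin : Finite {c // c ∈ l} := (List.finite_toSet l).to_subtype
  have hfinq : Finite (Quotient s) := Quotient.finite _
  obtain ⟨n, ⟨φ⟩⟩ := Finite.exists_equiv_fin (Quotient s)
  let E : Fin n → A := fun i => (Quotient.out (φ.symm i)).1
  have hE : ∀ i, Prim W (E i) := fun i => hl _ (Quotient.out (φ.symm i)).2
  refine ⟨n, E, ⟨hW, hJ, hmL, hmR, radK_nil, fun i => (hE i).idem, fun i => (hE i).deg,
    fun i => idem_notMem_rad (K := K) (hE i).idem (hE i).ne, ?_, fun i a => (hE i).diag hW a, ?_⟩⟩
  · intro i j hij a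
    by_contra h
    have h1 := hrel (E i) (E j) (hE i) (hE j) ⟨a, h⟩
    have h2 : (Quotient.out (φ.symm i) : {c // c ∈ l}) ≈ Quotient.out (φ.symm j) := h1
    rw [Quotient.out_equiv_out] at h2
    exact hij (φ.symm.injective h2)
  · intro a
    -- the set of good elements
    have hgood : ∀ c ∈ l, c ∈ radK K A ⊔ Submodule.span K {z | ∃ i x y, z = x * E i * y} := by
      intro c hc
      have h1 : (Quotient.out (Quotient.mk s ⟨c, hc⟩) : {c // c ∈ l}) ≈ ⟨c, hc⟩ :=
        Quotient.mk_out _
      obtain ⟨x, y, h2, h3, h4, h5⟩ := h1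
      -- `y x ≡ c`
      have h6 : E (φ (Quotient.mk s ⟨c, hc⟩)) = (Quotient.out (Quotient.mk s ⟨c, hc⟩)).1 := by
        change (Quotient.out (φ.symm (φ _))).1 = _
        rw [φ.symm_apply_apply]
      have h7 : y * x ∈ Submodule.span K {z | ∃ i x y, z = x * E i * y} := by
        refine Submodule.subset_span ⟨φ (Quotient.mk s ⟨c, hc⟩), y, x, ?_⟩
        rw [h6]
        have h8 := (hl _ (Quotient.out (Quotient.mk s ⟨c, hc⟩)).2).idem
        have h9 : y * (Quotient.out (Quotient.mk s ⟨c, hc⟩)).1 = y := by
          conv_lhs => rw [← h3]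
          rw [mul_assoc, h8, h3]
        rw [h9]
      have h10 : c = -(y * x - c) + y * x := by abel
      rw [h10]
      exact Submodule.add_mem_sup (neg_mem h5) h7
    have hstab : ∀ (a : A), ∀ z ∈ radK K A ⊔ Submodule.span K {z | ∃ i x y, z = x * E i * y},
        a * z ∈ radK K A ⊔ Submodule.span K {z | ∃ i x y, z = x * E i * y} := by
      intro a z hz
      obtain ⟨j, hj, w, hw, rfl⟩ := Submodule.mem_sup.1 hz
      rw [mul_add]
      refine Submodule.add_mem_sup (hmL a j hj) ?_
      induction hw using Submodule.span_induction with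
      | mem x hx =>
        obtain ⟨i, x, y, rfl⟩ := hx
        exact Submodule.subset_span ⟨i, a * x, y, by simp only [mul_assoc]⟩
      | zero => rw [mul_zero]; exact zero_mem _
      | add x y hx' hy' hx hy =>
        rw [mul_add]
        refine add_mem (hx ?_) (hy ?_)
        · exact Submodule.add_mem_sup hj hx'
        · exact Submodule.add_mem_sup hj hy'
      | smul c x hx' hx =>
        rw [mul_smul_comm]
        exact Submodule.smul_mem _ _ (hx (Submodule.add_mem_sup hj hx'))
    have h1 : (1 : A) ∈ radK K A ⊔ Submodule.span K {z | ∃ i x y, z = x * E i * y} := by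
      rw [← hsum]
      exact list_sum_mem hgood
    have := hstab a 1 h1
    rwa [mul_one] at this

end Vale.P179.H175
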