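import Mathlib

/-!
# Letters for `ℚ`-graded finite dimensional algebras and modules (SIGNATURE project)
-/

namespace Vale.P179.H175

open Module

variable {K : Type*} [Field K]

section space

variable {X : Type*} [AddCommGroup X] [Module K X]

/-- component of degree `r` -/
noncomputable def cpt (V : ℚ → Submodule K X) (r : ℚ) : X →ₗ[K] X := by
  classical
  exact if h : DirectSum.IsInternal V then
    (V r).subtype ∘ₗ DirectSum.component K ℚ (fun r => V r) r ∘ₗ
      (LinearEquiv.ofBijective (DirectSum.coeLinearMap V) h).symm.toLinearMap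
  else 0

/-- homogeneous subspaces -/
def Homog (V : ℚ → Submodule K X) (U : Submodule K X) : Prop := ∀ x ∈ U, ∀ r, cpt V r x ∈ U

/-- the graded dimension `∑ dim (U ∩ V r) T^r ∈ ℤ[T^ℚ]` of a subspace -/
noncomputable def gd (V : ℚ → Submodule K X) (U : Submodule K X) : AddMonoidAlgebra ℤ ℚ :=
  ∑ᶠ r, AddMonoidAlgebra.single r (finrank K ↥(U ⊓ V r) : ℤ)

end space

section algebra

variable {A : Type*} [Ring A] [Algebra K A]

/-- a `ℚ`-grading of an algebra -/
structure GrAlg (W : ℚ → Submodule K A) : Prop where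
  int : DirectSum.IsInternal W
  one : (1 : A) ∈ W 0
  mul : ∀ {r s : ℚ} {x y : A}, x ∈ W r → y ∈ W s → x * y ∈ W (r + s)

/-- a `ℚ`-grading of a module over a graded algebra -/
structure GrMod (W : ℚ → Submodule K A) {X : Type*} [AddCommGroup X] [Module K X] [Module A X]
    (V : ℚ → Submodule K X) : Prop where
  int : DirectSum.IsInternal V
  smul : ∀ {r s : ℚ} {a : A} {x : X}, a ∈ W r → x ∈ V s → a • x ∈ V (r + s)

/-- the corner `ε A η` -/
def cor2 (K : Type*) [Field K] {A : Type*} [Ring A] [Algebra K A] (ε η : A) : Submodule K A where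
  carrier := {x | ε * x = x ∧ x * η = x}
  add_mem' := fun {x y} hx hy => ⟨by rw [mul_add, hx.1, hy.1], by rw [add_mul, hx.2, hy.2]⟩
  zero_mem' := ⟨mul_zero _, zero_mul _⟩
  smul_mem' := fun c x hx => ⟨by rw [mul_smul_comm, hx.1], by rw [smul_mul_assoc, hx.2]⟩

variable {X : Type*} [AddCommGroup X] [Module K X] [Module A X]

/-- the corner `ε X` of a module -/
def cor1 (K : Type*) [Field K] {A : Type*} [Ring A] [Algebra K A] (X : Type*) [AddCommGroup X]
    [Module K X] [Module A X] [IsScalarTower K A X] (ε : A) : Submodule K X where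
  carrier := {x | ε • x = x}
  add_mem' := fun {x y} hx hy => by
    change ε • (x + y) = x + y
    rw [smul_add, hx, hy]
  zero_mem' := smul_zero _
  smul_mem' := fun c x hx => by
    change ε • (c • x) = c • x
    rw [smul_algebra_smul_comm, hx]

/-- `J Y`: the span of the `j • y` -/
def spn (J : Submodule K A) (Y : Submodule K X) : Submodule K X :=
  Submodule.span K {z | ∃ j ∈ J, ∃ y ∈ Y, z = j • y}

/-- Basic data of a graded algebra: a nilpotent homogeneous ideal `J` and idempotents `e i` of
degree `0`, one for each simple module, with `e i A e i = K (e i) + J`. -/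
structure Basic (W : ℚ → Submodule K A) (J : Submodule K A) {I : Type*} (e : I → A) : Prop where
  gr : GrAlg W
  hom : Homog W J
  mulL : ∀ (a : A), ∀ j ∈ J, a * j ∈ J
  mulR : ∀ (a : A), ∀ j ∈ J, j * a ∈ J
  nil : ∃ n : ℕ, J ^ n = ⊥
  idem : ∀ i, e i * e i = e i
  deg : ∀ i, e i ∈ W 0
  ne : ∀ i, e i ∉ J
  off : ∀ i j, i ≠ j → ∀ a, e i * a * e j ∈ J
  diag : ∀ i a, ∃ c : K, e i * a * e i - c • e i ∈ J
  full : ∀ a : A, a ∈ J ⊔ Submodule.span K {z | ∃ i x y, z = x * e i * y}

end algebra

end Vale.P179.H175
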