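import Vale.Agent.P179.H175.Layer

/-!
# Graded composition multiplicities: the number identity (L1)
-/

namespace Vale.P179.H175

open Module

variable {K : Type*} [Field K]

section alg

variable {A : Type*} [Ring A] [Algebra K A] {W : ℚ → Submodule K A} {J : Submodule K A}
  {I : Type*} {e : I → A}
  {X : Type*} [AddCommGroup X] [Module K X] [Module A X] [IsScalarTower K A X]
  {V : ℚ → Submodule K X}

/-- dimension count in one degree of a layer -/
theorem layer_count [FiniteDimensional K A] [FiniteDimensional K X] (hB : Basic W J e)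
    (hX : GrMod W V) {Y : Submodule K X} (hYh : Homog V Y)
    (hYs : ∀ (a : A), ∀ y ∈ Y, a • y ∈ Y) {n : ℕ} {ι : Fin n → I} {r : Fin n → ℚ}
    {x : Fin n → X} (hL : Layer J e V Y ι r x) {ε : A} (hε : ε ∈ W 0) (hεε : ε * ε = ε) (t : ℚ) :
    finrank K ↥(Y ⊓ cor1 K X ε ⊓ V t) +
        ∑ α, finrank K ↥(J ⊓ cor2 K ε (e (ι α)) ⊓ W (t - r α)) =
      finrank K ↥(spn J Y ⊓ cor1 K X ε ⊓ V t) +
        ∑ α, finrank K ↥(cor2 K ε (e (ι α)) ⊓ W (t - r α)) := by
  classical
  have hJY : spn J Y ≤ Y := spn_le fun j _ y hy => hYs j y hy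
  have hJYh : Homog V (spn J Y) := hX.homog_spn hB.gr hB.hom hYh
  let S : Fin n → Submodule K A := fun α => cor2 K ε (e (ι α)) ⊓ W (t - r α)
  let S' : Fin n → Submodule K A := fun α => J ⊓ cor2 K ε (e (ι α)) ⊓ W (t - r α)
  let P : Submodule K X := Y ⊓ cor1 K X ε ⊓ V t
  let Q : Submodule K X := spn J Y ⊓ cor1 K X ε ⊓ V t
  -- the sum map
  have hsum : ∀ f : (α : Fin n) → S α, ∑ α, (f α : A) • x α ∈ P := fun f => by
    refine Submodule.sum_mem _ fun α _ => ⟨⟨hYs _ _ (hL.mem α), ?_⟩, ?_⟩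
    · change ε • (f α : A) • x α = (f α : A) • x α
      rw [← mul_smul, (f α).2.1.1]
    · have := hX.smul (f α).2.2 (hL.deg α)
      rwa [sub_add_cancel] at this
  let Φ : ((α : Fin n) → S α) × Q →ₗ[K] P :=
    { toFun := fun fq => ⟨∑ α, (fq.1 α : A) • x α + fq.2,
        add_mem (hsum fq.1) ⟨⟨hJY fq.2.2.1.1, fq.2.2.1.2⟩, fq.2.2.2⟩⟩
      map_add' := fun a b => by
        apply Subtype.ext
        simp only [Prod.fst_add, Prod.snd_add, Pi.add_apply, Submodule.coe_add, add_smul,
          Finset.sum_add_distrib]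
        abel
      map_smul' := fun c a => by
        apply Subtype.ext
        simp only [Prod.smul_fst, Prod.smul_snd, Pi.smul_apply, Submodule.coe_smul, smul_assoc,
          RingHom.id_apply, smul_add, Finset.smul_sum] }
  have hsurj : LinearMap.range Φ = ⊤ := by
    rw [LinearMap.range_eq_top]
    rintro ⟨y, hy⟩
    obtain ⟨a, ha⟩ := hL.gen y hy.1.1
    have hm : ∀ α, cpt W (t - r α) (ε * a α * e (ι α)) ∈ S α := fun α => by
      refine ⟨hB.gr.homog_cor2 hε (hB.deg _) _ ?_ _, cpt_mem hB.gr.int _ _⟩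
      refine ⟨?_, ?_⟩
      · rw [← mul_assoc, ← mul_assoc, hεε]
      · rw [mul_assoc, hB.idem]
    have hq : cpt V t (ε • (y - ∑ α, a α • x α)) ∈ Q := by
      have h1 : ε • (y - ∑ α, a α • x α) ∈ spn J Y ⊓ cor1 K X ε := by
        refine ⟨spn_stable hB.mulL ε ha, ?_⟩
        change ε • ε • _ = ε • _
        rw [← mul_smul, hεε]
      exact ⟨(hJYh.inf (hX.homog_cor1 hε)) _ h1 t, cpt_mem hX.int _ _⟩
    refine ⟨(fun α => ⟨_, hm α⟩, ⟨_, hq⟩), Subtype.ext ?_⟩
    change ∑ α, cpt W (t - r α) (ε * a α * e (ι α)) • x α +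
      cpt V t (ε • (y - ∑ α, a α • x α)) = y
    have h2 : ∀ α, cpt W (t - r α) (ε * a α * e (ι α)) • x α = cpt V t ((ε * a α) • x α) := by
      intro α
      rw [← GrMod.cpt_smul' hB.gr hX _ (hL.deg α), mul_smul _ (e (ι α)), hL.fix]
    rw [Finset.sum_congr rfl fun α _ => h2 α, ← map_sum, ← map_add]
    have h3 : ∑ α, (ε * a α) • x α + ε • (y - ∑ α, a α • x α) = y := by
      rw [smul_sub, Finset.smul_sum]
      simp only [mul_smul]
      rw [add_sub_cancel, mem_cor1.1 hy.1.2]
    rw [h3]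
    exact cpt_of_mem hX.int hy.2
  have hker : finrank K (LinearMap.ker Φ) = ∑ α, finrank K (S' α) := by
    let Ψ : ((α : Fin n) → S' α) →ₗ[K] LinearMap.ker Φ :=
      { toFun := fun f => ⟨(fun α => ⟨f α, (f α).2.1.2, (f α).2.2⟩,
          ⟨-∑ α, (f α : A) • x α, by
            refine neg_mem (Submodule.sum_mem _ fun α _ => ⟨⟨?_, ?_⟩, ?_⟩)
            · exact smul_mem_spn (f α).2.1.1 (hL.mem α)
            · change ε • (f α : A) • x α = (f α : A) • x α
              rw [← mul_smul, (f α).2.1.2.1]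
            · have := hX.smul (f α).2.2 (hL.deg α)
              rwa [sub_add_cancel] at this⟩), by
            rw [LinearMap.mem_ker]
            apply Subtype.ext
            change ∑ α, (f α : A) • x α + -∑ α, (f α : A) • x α = 0
            rw [add_neg_cancel]⟩
        map_add' := fun a b => by
          apply Subtype.ext
          apply Prod.ext
          · rfl
          · apply Subtype.ext
            change -∑ α, ((a α : A) + (b α : A)) • x α = -∑ α, (a α : A) • x α +
              -∑ α, (b α : A) • x α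
            simp only [add_smul, Finset.sum_add_distrib]
            abel
        map_smul' := fun c a => by
          apply Subtype.ext
          apply Prod.ext
          · rfl
          · apply Subtype.ext
            change -∑ α, (c • (a α : A)) • x α = c • -∑ α, (a α : A) • x α
            simp only [smul_assoc, smul_neg, Finset.smul_sum] }
    have hΨ : Function.Bijective Ψ := by
      constructor
      · intro f g hfg
        funext α
        apply Subtype.ext
        have h1 := congrArg (fun z : LinearMap.ker Φ =>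
          (((z : ((α : Fin n) → S α) × Q).1 α : S α) : A)) hfg
        exact h1
      · rintro ⟨⟨f, q⟩, hf⟩
        have h0 : ∑ α, (f α : A) • x α + (q : X) = 0 :=
          congrArg (fun z : P => (z : X)) (LinearMap.mem_ker.1 hf)
        have h1 : ∑ α, (f α : A) • x α ∈ spn J Y := by
          rw [eq_neg_of_add_eq_zero_left h0]
          exact neg_mem q.2.1.1
        have h2 := hL.indep (fun α => (f α : A)) h1
        have h3 : ∀ α, (f α : A) ∈ S' α := fun α => by
          have := h2 α
          rw [(f α).2.1.2] at this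
          exact ⟨⟨this, (f α).2.1⟩, (f α).2.2⟩
        refine ⟨fun α => ⟨f α, h3 α⟩, ?_⟩
        apply Subtype.ext
        apply Prod.ext
        · rfl
        · apply Subtype.ext
          change -∑ α, (f α : A) • x α = (q : X)
          rw [eq_neg_of_add_eq_zero_left h0, neg_neg]
    rw [← (LinearEquiv.ofBijective Ψ hΨ).finrank_eq, finrank_pi_fintype]
  have h1 := LinearMap.finrank_range_add_finrank_ker Φ
  rw [hsurj, finrank_top, hker, finrank_prod, finrank_pi_fintype] at h1
  change finrank K P + ∑ α, finrank K (S' α) = finrank K Q + ∑ α, finrank K (S α)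
  rw [h1, add_comm]

/-- the number identity for one layer -/
theorem layer_gd [Fintype I] [FiniteDimensional K A] [FiniteDimensional K X] (hB : Basic W J e)
    (hX : GrMod W V) {Y : Submodule K X} (hYh : Homog V Y)
    (hYs : ∀ (a : A), ∀ y ∈ Y, a • y ∈ Y) {ε : A} (hε : ε ∈ W 0) (hεε : ε * ε = ε) :
    gd V (Y ⊓ cor1 K X ε) - gd V (spn J Y ⊓ cor1 K X ε) =
      ∑ i, (gd W (cor2 K ε (e i)) - gd W (J ⊓ cor2 K ε (e i))) *
        (gd V (Y ⊓ cor1 K X (e i)) - gd V (spn J Y ⊓ cor1 K X (e i))) := by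
  classical
  obtain ⟨n, ι, r, x, hL⟩ := exists_layer hB hX Y hYh hYs
  have hcnt : ∀ i, gd V (Y ⊓ cor1 K X (e i)) - gd V (spn J Y ⊓ cor1 K X (e i)) =
      ∑ α, if ι α = i then AddMonoidAlgebra.single (r α) (1 : ℤ) else 0 := by
    intro i
    refine AddMonoidAlgebra.ext (Finsupp.ext fun t => ?_)
    rw [AddMonoidAlgebra.coeff_sub, Finsupp.sub_apply, coeff_gd hX.int, coeff_gd hX.int,
      hL.count i t, AddMonoidAlgebra.coeff_sum, Finsupp.finsetSum_apply]
    have h1 : ∀ α, (if ι α = i then AddMonoidAlgebra.single (r α) (1 : ℤ) else 0).coeff t =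
        if ι α = i ∧ r α = t then 1 else 0 := by
      intro α
      by_cases h : ι α = i
      · rw [if_pos h, AddMonoidAlgebra.coeff_single, Finsupp.single_apply]
        simp [h]
      · rw [if_neg h, if_neg (fun h' => h h'.1)]
        rfl
    rw [Finset.sum_congr rfl fun α _ => h1 α, Finset.sum_boole]
    push_cast
    rw [add_sub_cancel_left, Nat.card_eq_fintype_card, Fintype.card_subtype]
  have hlay : gd V (Y ⊓ cor1 K X ε) - gd V (spn J Y ⊓ cor1 K X ε) =
      ∑ α, (gd W (cor2 K ε (e (ι α))) - gd W (J ⊓ cor2 K ε (e (ι α)))) *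
        AddMonoidAlgebra.single (r α) (1 : ℤ) := by
    refine AddMonoidAlgebra.ext (Finsupp.ext fun t => ?_)
    rw [AddMonoidAlgebra.coeff_sub, Finsupp.sub_apply, coeff_gd hX.int, coeff_gd hX.int,
      AddMonoidAlgebra.coeff_sum, Finsupp.finsetSum_apply]
    have h1 : ∀ α, ((gd W (cor2 K ε (e (ι α))) - gd W (J ⊓ cor2 K ε (e (ι α)))) *
        AddMonoidAlgebra.single (r α) (1 : ℤ)).coeff t =
        (finrank K ↥(cor2 K ε (e (ι α)) ⊓ W (t - r α)) : ℤ) -
          finrank K ↥(J ⊓ cor2 K ε (e (ι α)) ⊓ W (t - r α)) := by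
      intro α
      rw [mul_comm, AddMonoidAlgebra.coeff_single_mul_apply, one_mul, AddMonoidAlgebra.coeff_sub,
        Finsupp.sub_apply, coeff_gd hB.gr.int, coeff_gd hB.gr.int,
        show -r α + t = t - r α by ring]
    rw [Finset.sum_congr rfl fun α _ => h1 α, Finset.sum_sub_distrib]
    have h2 := layer_count hB hX hYh hYs hL hε hεε t
    have h3 := congrArg (fun z : ℕ => (z : ℤ)) h2
    push_cast at h3
    linarith
  rw [hlay]
  have h4 : ∀ i, (gd W (cor2 K ε (e i)) - gd W (J ⊓ cor2 K ε (e i))) *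
        (gd V (Y ⊓ cor1 K X (e i)) - gd V (spn J Y ⊓ cor1 K X (e i))) =
      ∑ α, if ι α = i then (gd W (cor2 K ε (e (ι α))) - gd W (J ⊓ cor2 K ε (e (ι α)))) *
        AddMonoidAlgebra.single (r α) (1 : ℤ) else 0 := by
    intro i
    rw [hcnt i, Finset.mul_sum]
    refine Finset.sum_congr rfl fun α _ => ?_
    split_ifs with h
    · rw [h]
    · rw [mul_zero]
  rw [Finset.sum_congr rfl fun i _ => h4 i, Finset.sum_comm]
  refine Finset.sum_congr rfl fun α _ => ?_
  rw [Finset.sum_ite_eq Finset.univ (ι α), if_pos (Finset.mem_univ _)]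

/-- **(L1)** the graded dimension of `ε X` through the graded composition multiplicities -/
theorem L1 [Fintype I] [FiniteDimensional K A] [FiniteDimensional K X] (hB : Basic W J e)
    (hX : GrMod W V) {ε : A} (hε : ε ∈ W 0) (hεε : ε * ε = ε) :
    gd V (cor1 K X ε) =
      ∑ i, (gd W (cor2 K ε (e i)) - gd W (J ⊓ cor2 K ε (e i))) * gd V (cor1 K X (e i)) := by
  classical
  obtain ⟨n, hn⟩ := hB.nil
  let Z : ℕ → Submodule K X := fun m => (spn J)^[m] ⊤
  have hZ : ∀ m, Homog V (Z m) ∧ ∀ (a : A), ∀ y ∈ Z m, a • y ∈ Z m := by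
    intro m
    induction m with
    | zero => exact ⟨Homog.top, fun _ _ _ => trivial⟩
    | succ m ih =>
      have : Z (m + 1) = spn J (Z m) := Function.iterate_succ_apply' _ _ _
      rw [this]
      exact ⟨hX.homog_spn hB.gr hB.hom ih.1, fun a y hy => spn_stable hB.mulL a hy⟩
  have hn0 : Z n = ⊥ := by
    refine le_bot_iff.1 ((spn_pow n).trans ?_)
    rw [hn, spn_bot]
  have key : ∀ m, gd V (⊤ ⊓ cor1 K X ε) - gd V (Z m ⊓ cor1 K X ε) =
      ∑ i, (gd W (cor2 K ε (e i)) - gd W (J ⊓ cor2 K ε (e i))) *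
        (gd V (⊤ ⊓ cor1 K X (e i)) - gd V (Z m ⊓ cor1 K X (e i))) := by
    intro m
    induction m with
    | zero =>
      have : Z 0 = ⊤ := rfl
      simp [this]
    | succ m ih =>
      have h1 : Z (m + 1) = spn J (Z m) := Function.iterate_succ_apply' _ _ _
      have h2 := layer_gd hB hX (hZ m).1 (hZ m).2 hε hεε
      rw [← h1] at h2
      have h3 : gd V (⊤ ⊓ cor1 K X ε) - gd V (Z (m + 1) ⊓ cor1 K X ε) =
          (gd V (⊤ ⊓ cor1 K X ε) - gd V (Z m ⊓ cor1 K X ε)) +
          (gd V (Z m ⊓ cor1 K X ε) - gd V (Z (m + 1) ⊓ cor1 K X ε)) := by ring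
      rw [h3, ih, h2, ← Finset.sum_add_distrib]
      refine Finset.sum_congr rfl fun i _ => ?_
      ring
  have := key n
  rw [hn0] at this
  simpa only [bot_inf_eq, top_inf_eq, gd_bot, sub_zero] using this

end alg

end Vale.P179.H175
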