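import Vale.Agent.P179.H175.Gr2

/-!
# Homogeneous generators of a layer `Y / J Y`
-/

namespace Vale.P179.H175

open Module

variable {K : Type*} [Field K]

section alg

variable {A : Type*} [Ring A] [Algebra K A] {W : ℚ → Submodule K A} {J : Submodule K A}
  {I : Type*} {e : I → A}
  {X : Type*} [AddCommGroup X] [Module K X] [Module A X] [IsScalarTower K A X]
  {V : ℚ → Submodule K X}

/-- the homogeneous family generating a layer -/
structure Layer (J : Submodule K A) (e : I → A) (V : ℚ → Submodule K X) (Y : Submodule K X)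
    {n : ℕ} (ι : Fin n → I) (r : Fin n → ℚ) (x : Fin n → X) : Prop where
  mem : ∀ α, x α ∈ Y
  deg : ∀ α, x α ∈ V (r α)
  fix : ∀ α, e (ι α) • x α = x α
  count : ∀ j t, finrank K ↥(Y ⊓ cor1 K X (e j) ⊓ V t) =
    finrank K ↥(spn J Y ⊓ cor1 K X (e j) ⊓ V t) + Nat.card {α // ι α = j ∧ r α = t}
  gen : ∀ y ∈ Y, ∃ a : Fin n → A, y - ∑ α, a α • x α ∈ spn J Y
  indep : ∀ a : Fin n → A, ∑ α, a α • x α ∈ spn J Y → ∀ α, a α * e (ι α) ∈ J

theorem exists_layer [Finite I] [FiniteDimensional K X] (hB : Basic W J e) (hX : GrMod W V)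
    (Y : Submodule K X) (hYh : Homog V Y) (hYs : ∀ (a : A), ∀ y ∈ Y, a • y ∈ Y) :
    ∃ (n : ℕ) (ι : Fin n → I) (r : Fin n → ℚ) (x : Fin n → X), Layer J e V Y ι r x := by
  classical
  have := Fintype.ofFinite I
  have hJY : spn J Y ≤ Y := spn_le fun j _ y hy => hYs j y hy
  have hJYh : Homog V (spn J Y) := hX.homog_spn hB.gr hB.hom hYh
  have hle : ∀ j t, spn J Y ⊓ cor1 K X (e j) ⊓ V t ≤ Y ⊓ cor1 K X (e j) ⊓ V t := fun j t =>
    inf_le_inf_right _ (inf_le_inf_right _ hJY)
  choose n b hb1 hb2 hb3 hb4 using fun (jt : I × H175.sup hX.int) => exists_rel_basis (hle jt.1 jt.2)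
  let σ := Σ jt : I × H175.sup hX.int, Fin (n jt)
  let E : Fin (Fintype.card σ) ≃ σ := (Fintype.equivFin σ).symm
  -- statements for the family indexed by `σ`
  have hmem : ∀ s : σ, b s.1 s.2 ∈ Y := fun s => (hb1 s.1 s.2).1.1
  have hdeg : ∀ s : σ, b s.1 s.2 ∈ V s.1.2 := fun s => (hb1 s.1 s.2).2
  have hfix : ∀ s : σ, e s.1.1 • b s.1 s.2 = b s.1 s.2 := fun s => (hb1 s.1 s.2).1.2
  have hgen : ∀ y ∈ Y, ∃ a : σ → A, y - ∑ s, a s • b s.1 s.2 ∈ spn J Y := by
    -- the set of good elements
    let G : Submodule K X :=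
      { carrier := {y | ∃ a : σ → A, y - ∑ s, a s • b s.1 s.2 ∈ spn J Y}
        zero_mem' := ⟨0, by simp⟩
        add_mem' := by
          rintro y y' ⟨a, ha⟩ ⟨a', ha'⟩
          refine ⟨a + a', ?_⟩
          have : y + y' - ∑ s, (a + a') s • b s.1 s.2 =
              (y - ∑ s, a s • b s.1 s.2) + (y' - ∑ s, a' s • b s.1 s.2) := by
            simp only [Pi.add_apply, add_smul, Finset.sum_add_distrib]
            abel
          rw [this]
          exact add_mem ha ha'
        smul_mem' := by
          rintro c y ⟨a, ha⟩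
          refine ⟨c • a, ?_⟩
          have : c • y - ∑ s, (c • a) s • b s.1 s.2 = c • (y - ∑ s, a s • b s.1 s.2) := by
            simp only [Pi.smul_apply, smul_sub, Finset.smul_sum, smul_assoc]
          rw [this]
          exact Submodule.smul_mem _ _ ha }
    have hGs : ∀ (a : A), ∀ y ∈ G, a • y ∈ G := by
      rintro a y ⟨a', ha'⟩
      refine ⟨fun s => a * a' s, ?_⟩
      have : a • y - ∑ s, (a * a' s) • b s.1 s.2 = a • (y - ∑ s, a' s • b s.1 s.2) := by
        simp only [smul_sub, Finset.smul_sum, mul_smul]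
      rw [this]
      exact spn_stable hB.mulL a ha'
    have hGJ : spn J Y ≤ G := fun y hy => ⟨0, by simpa using hy⟩
    have hG1 : ∀ j, Y ⊓ cor1 K X (e j) ≤ G := by
      intro j y hy
      have hyh : Homog V (Y ⊓ cor1 K X (e j)) := hYh.inf (hX.homog_cor1 (hB.deg j))
      rw [← sum_cpt hX.int y]
      refine Submodule.sum_mem _ fun t ht => ?_
      obtain ⟨c, hc⟩ := hb3 (j, ⟨t, ht⟩) (cpt V t y) ⟨hyh y hy t, cpt_mem hX.int t y⟩
      refine ⟨fun s => if h : s.1 = (j, ⟨t, ht⟩) then algebraMap K A (c (h ▸ s.2)) else 0, ?_⟩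
      have h1 : ∑ s : σ, (if h : s.1 = (j, ⟨t, ht⟩) then algebraMap K A (c (h ▸ s.2)) else 0) •
          b s.1 s.2 = ∑ i, c i • b (j, ⟨t, ht⟩) i := by
        rw [Fintype.sum_sigma, Finset.sum_eq_single (j, ⟨t, ht⟩)]
        · refine Finset.sum_congr rfl fun i _ => ?_
          rw [dif_pos rfl, algebraMap_smul]
        · intro jt _ hjt
          refine Finset.sum_eq_zero fun i _ => ?_
          rw [dif_neg hjt, zero_smul]
        · exact fun h => absurd (Finset.mem_univ _) h
      rw [h1]
      exact hc.1.1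
    intro y hy
    have h1 : (1 : A) ∈ J ⊔ Submodule.span K {z | ∃ i x y, z = x * e i * y} := hB.full 1
    obtain ⟨j, hj, z, hz, hjz⟩ := Submodule.mem_sup.1 h1
    have h2 : y = j • y + z • y := by rw [← add_smul, hjz, one_smul]
    have h3 : z • y ∈ G := by
      clear hjz h2
      induction hz using Submodule.span_induction with
      | mem z hz =>
        obtain ⟨i, a, a', rfl⟩ := hz
        rw [mul_smul, mul_smul]
        refine hGs a _ (hG1 i ⟨hYs _ _ (hYs _ _ hy), ?_⟩)
        change e i • e i • a' • y = e i • a' • y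
        rw [← mul_smul, hB.idem]
      | zero => rw [zero_smul]; exact zero_mem _
      | add x y _ _ hx hy => rw [add_smul]; exact add_mem hx hy
      | smul c x _ hx => rw [smul_assoc]; exact Submodule.smul_mem _ _ hx
    rw [h2]
    exact add_mem (hGJ (smul_mem_spn hj hy)) h3
  have hindep : ∀ a : σ → A, ∑ s, a s • b s.1 s.2 ∈ spn J Y → ∀ s, a s * e s.1.1 ∈ J := by
    intro a ha
    -- first step: corners
    have key : ∀ (j : I) (a' : A) (s : σ), e j * a' * (a s * e s.1.1) ∈ J := by
      intro j a'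
      have h1 : ∀ s : σ, ∃ c : K, s.1.1 = j → e j * a' * a s * e j - c • e j ∈ J := by
        intro s
        obtain ⟨c, hc⟩ := hB.diag j (a' * a s)
        exact ⟨c, fun _ => by simpa only [mul_assoc] using hc⟩
      choose c hc using h1
      have h2 : ∑ s : σ, (if s.1.1 = j then c s • b s.1 s.2 else 0) ∈ spn J Y := by
        have h3 : (e j * a') • ∑ s, a s • b s.1 s.2 ∈ spn J Y := spn_stable hB.mulL _ ha
        have h4 : ∑ s : σ, ((e j * a' * a s) • b s.1 s.2 -
            if s.1.1 = j then c s • b s.1 s.2 else 0) ∈ spn J Y := by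
          refine Submodule.sum_mem _ fun s _ => ?_
          split_ifs with h
          · have h5 : (e j * a' * a s) • b s.1 s.2 - c s • b s.1 s.2 =
                (e j * a' * a s * e j - c s • e j) • b s.1 s.2 := by
              have h6 : e j • b s.1 s.2 = b s.1 s.2 := by rw [← h]; exact hfix s
              rw [sub_smul, mul_smul (e j * a' * a s), h6, smul_assoc, h6]
            rw [h5]
            exact smul_mem_spn (hc s h) (hmem s)
          · rw [sub_zero]
            have h5 : (e j * a' * a s) • b s.1 s.2 =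
                (e j * (a' * a s) * e s.1.1) • b s.1 s.2 := by
              rw [mul_smul _ (e s.1.1), hfix s, mul_assoc]
            rw [h5]
            exact smul_mem_spn (hB.off j s.1.1 (Ne.symm h) _) (hmem s)
        rw [Finset.sum_sub_distrib] at h4
        have h5 : ∑ s : σ, (e j * a' * a s) • b s.1 s.2 =
            (e j * a') • ∑ s, a s • b s.1 s.2 := by
          rw [Finset.smul_sum]
          exact Finset.sum_congr rfl fun s _ => mul_smul _ _ _
        rw [h5] at h4
        simpa using sub_mem h3 h4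
      -- all the coefficients vanish
      have h6 : ∀ s : σ, s.1.1 = j → c s = 0 := by
        rintro ⟨⟨j', t⟩, i⟩ rfl
        have h7 := hJYh _ h2 t
        have h8 : cpt V t (∑ s : σ, (if s.1.1 = j' then c s • b s.1 s.2 else 0)) =
            ∑ i, c ⟨(j', t), i⟩ • b (j', t) i := by
          rw [map_sum, Fintype.sum_sigma, Finset.sum_eq_single (j', t)]
          · refine Finset.sum_congr rfl fun i _ => ?_
            rw [if_pos rfl]
            exact cpt_of_mem hX.int (Submodule.smul_mem _ _ (hdeg ⟨(j', t), i⟩))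
          · rintro ⟨j'', t'⟩ _ hne
            refine Finset.sum_eq_zero fun i _ => ?_
            split_ifs with h
            · refine cpt_of_mem_ne hX.int (Submodule.smul_mem _ _ (hdeg ⟨(j'', t'), i⟩)) ?_
              intro h'
              apply hne
              have h'' : j'' = j' := h
              have h3 : t' = t := Subtype.ext h'
              rw [h'', h3]
            · exact map_zero _
          · exact fun h => absurd (Finset.mem_univ _) h
        rw [h8] at h7
        have h9 : ∑ i, c ⟨(j', t), i⟩ • b (j', t) i ∈ spn J Y ⊓ cor1 K X (e j') ⊓ V t :=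
          ⟨⟨h7, Submodule.sum_mem _ fun i _ => Submodule.smul_mem _ _ (hfix ⟨(j', t), i⟩)⟩,
            Submodule.sum_mem _ fun i _ => Submodule.smul_mem _ _ (hdeg ⟨(j', t), i⟩)⟩
        exact congrFun (hb2 (j', t) _ h9) i
      intro s
      by_cases h : s.1.1 = j
      · have h1 := hc s h
        rw [h6 s h, zero_smul, sub_zero] at h1
        rw [h, ← mul_assoc]
        exact h1
      · have := hB.off j s.1.1 (Ne.symm h) (a' * a s)
        simpa only [mul_assoc] using this
    intro s
    have h1 : (1 : A) ∈ J ⊔ Submodule.span K {z | ∃ i x y, z = x * e i * y} := hB.full 1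
    obtain ⟨j, hj, z, hz, hjz⟩ := Submodule.mem_sup.1 h1
    have h2 : a s * e s.1.1 = j * (a s * e s.1.1) + z * (a s * e s.1.1) := by
      rw [← add_mul, hjz, one_mul]
    have h3 : z * (a s * e s.1.1) ∈ J := by
      clear hjz h2
      induction hz using Submodule.span_induction with
      | mem z hz =>
        obtain ⟨i, a1, a2, rfl⟩ := hz
        have := hB.mulL a1 _ (key i a2 s)
        simpa only [mul_assoc] using this
      | zero => rw [zero_mul]; exact zero_mem _
      | add x y _ _ hx hy => rw [add_mul]; exact add_mem hx hy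
      | smul c x _ hx => rw [smul_mul_assoc]; exact Submodule.smul_mem _ _ hx
    rw [h2]
    exact add_mem (hB.mulR _ _ hj) h3
  refine ⟨Fintype.card σ, fun α => (E α).1.1, fun α => (E α).1.2, fun α => b (E α).1 (E α).2,
    fun α => hmem _, fun α => hdeg _, fun α => hfix _, ?_, ?_, ?_⟩
  · intro j t
    have hcard : Nat.card {α // (E α).1.1 = j ∧ ((E α).1.2 : ℚ) = t} =
        Nat.card {s : σ // s.1.1 = j ∧ (s.1.2 : ℚ) = t} :=
      Nat.card_congr (E.subtypeEquiv fun _ => Iff.rfl)
    rw [hcard]
    by_cases ht : t ∈ H175.sup hX.int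
    · have hc2 : Nat.card {s : σ // s.1.1 = j ∧ (s.1.2 : ℚ) = t} = n (j, ⟨t, ht⟩) := by
        rw [← Nat.card_fin (n (j, ⟨t, ht⟩))]
        refine Nat.card_congr
          { toFun := fun s => Fin.cast (by
              have h : s.1.1 = (j, ⟨t, ht⟩) := Prod.ext s.2.1 (Subtype.ext s.2.2)
              rw [h]) s.1.2
            invFun := fun i => ⟨⟨(j, ⟨t, ht⟩), i⟩, rfl, rfl⟩
            left_inv := ?_
            right_inv := fun i => rfl }
        rintro ⟨⟨⟨j', t', ht'⟩, i⟩, h1, h2⟩
        obtain rfl : j' = j := h1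
        obtain rfl : t' = t := h2
        rfl
      rw [hc2]
      exact hb4 (j, ⟨t, ht⟩)
    · have h0 : V t = ⊥ := by
        by_contra h'
        exact ht (mem_sup.2 h')
      have : IsEmpty {s : σ // s.1.1 = j ∧ (s.1.2 : ℚ) = t} := by
        refine ⟨fun s => ht ?_⟩
        rw [← s.2.2]
        exact s.1.1.2.2
      rw [Nat.card_eq_zero.2 (Or.inl this), h0, inf_bot_eq, inf_bot_eq]
      simp
  · intro y hy
    obtain ⟨a, ha⟩ := hgen y hy
    refine ⟨fun α => a (E α), ?_⟩
    rwa [E.sum_comp (fun s => a s • b s.1 s.2)]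
  · intro a ha α
    have := hindep (fun s => a (E.symm s)) (by
      rw [← E.sum_comp]
      simpa using ha) (E α)
    simpa using this

end alg

end Vale.P179.H175
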