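import Vale.Agent.P179.H175.GrBasic

/-!
# ALLB, module Y2: the twisted local algebra is the group algebra

`L` is an algebra with units `γ g` (`g` in a finite group `P`), a separability element relative
to the span of the `γ g`, local commutant and a unique simple module on which the identity is the
sum of a trace and a projection of rank one.
-/

namespace Vale.P179.H175

open Module
open scoped TensorProduct

variable {K : Type*} [Field K] {L : Type*} [Ring L] [Algebra K L]

/-- elements of the kernel of the semisimple quotient are nilpotent -/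
theorem isNilpotent_of_mem_jacobson [FiniteDimensional K L] {x : L} (hx : x ∈ Ring.jacobson L) :
    IsNilpotent x := by
  obtain ⟨n, hn⟩ := radK_nil (K := K) (A := L)
  refine ⟨n, ?_⟩
  have h := Submodule.pow_mem_pow (radK K L) hx n
  rw [hn] at h
  simpa using h

/-- **Y2, first half**: the simple module is one dimensional -/
theorem y2_card {P : Type*} [Group P] [Fintype P] {ν : Type*} [Fintype ν] [DecidableEq ν]
    (γ : P →* L) (π : L →ₐ[K] Matrix ν ν K) (hπ : Function.Surjective π)
    (hloc : ∀ z : L, (∀ g, γ g * z = z * γ g) → IsUnit z ∨ IsNilpotent z)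
    (h : Matrix ν ν K)
    (hf : (∑ g, π (γ g) * h * π (γ g⁻¹)) * (∑ g, π (γ g) * h * π (γ g⁻¹)) =
      ∑ g, π (γ g) * h * π (γ g⁻¹))
    (hr : (1 - ∑ g, π (γ g) * h * π (γ g⁻¹)).rank = 1) : Fintype.card ν = 1 := by
  classical
  obtain ⟨a, ha⟩ := hπ h
  set f := ∑ g, π (γ g) * h * π (γ g⁻¹) with hfdef
  set T : L := ∑ g, γ g * a * γ g⁻¹ with hT
  have hπT : π T = f := by
    rw [hT, hfdef, map_sum]
    exact Finset.sum_congr rfl fun g _ => by rw [map_mul, map_mul, ha]
  have hcomm : ∀ g, γ g * T = T * γ g := by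
    intro g
    rw [hT, Finset.mul_sum, Finset.sum_mul]
    refine Fintype.sum_bijective (fun x => g * x) (Group.mulLeft_bijective g) _ _ fun x => ?_
    have h1 : γ (g * x)⁻¹ * γ g = γ x⁻¹ := by
      rw [← map_mul]; congr 1; group
    rw [mul_assoc (γ (g * x) * a), h1, map_mul]
    simp only [mul_assoc]
  have hf0 : f = 0 := by
    rcases hloc T hcomm with hu | hn
    · exfalso
      have h1 : IsUnit f := by rw [← hπT]; exact hu.map π
      have h2 : f = 1 := by
        have := h1.mul_left_cancel (b := f) (c := 1) (by rw [hf, mul_one])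
        exact this
      rw [h2, sub_self, Matrix.rank_zero] at hr
      exact absurd hr (by norm_num)
    · have h1 : IsNilpotent f := by rw [← hπT]; exact hn.map π
      obtain ⟨n, hn⟩ := h1
      have h2 : ∀ m : ℕ, f ^ (m + 1) = f := by
        intro m
        induction m with
        | zero => simp
        | succ m ih => rw [pow_succ, ih, hf]
      have h3 := h2 n
      rw [pow_succ, hn, zero_mul] at h3
      exact h3.symm
  rw [hf0, sub_zero, Matrix.rank_one] at hr
  exact hr

/-- **Y2, second half**: a local algebra with residue field `K`, separable over the span of a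
group of units that acts trivially on the simple module, is spanned by this group. -/
theorem y2_span [FiniteDimensional K L] {P : Type*} [Group P] {A : Type*} [Ring A] [Algebra K A]
    (γ : P →* A) (ι : A →ₐ[K] L) (hspan : Submodule.span K (Set.range γ) = ⊤)
    (χ : L →ₐ[K] K) (hker : ∀ x, χ x = 0 → x ∈ Ring.jacobson L) (hχ : ∀ g, χ (ι (γ g)) = 1)
    {m : ℕ} (s t : Fin m → L) (hst : ∑ i, s i * t i = 1)
    (hsep : ∀ b : L, (∑ i, (b * s i) ⊗ₜ[K] t i) - (∑ i, s i ⊗ₜ[K] (t i * b)) ∈
      Submodule.span K {z : L ⊗[K] L | ∃ (x y : L) (h : A),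
        z = (x * ι h) ⊗ₜ[K] y - x ⊗ₜ[K] (ι h * y)}) :
    Function.Surjective ι := by
  classical
  -- the left ideal `L I`
  let I : Submodule K L := Submodule.span K (Set.range fun g => ι (γ g) - 1)
  let U : Submodule K L := ⊤ * I
  have hU : ∀ (a : L), ∀ u ∈ U, a * u ∈ U := by
    intro a u hu
    refine Submodule.mul_induction_on hu (fun x _ y hy => ?_) (fun x y hx hy => ?_)
    · rw [← mul_assoc]
      exact Submodule.mul_mem_mul trivial hy
    · rw [mul_add]; exact add_mem hx hy
  have hIh : ∀ h : A, ι h - χ (ι h) • (1 : L) ∈ I := by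
    intro h
    have hh : h ∈ Submodule.span K (Set.range γ) := by rw [hspan]; trivial
    induction hh using Submodule.span_induction with
    | mem x hx =>
      obtain ⟨g, rfl⟩ := hx
      rw [hχ, one_smul]
      exact Submodule.subset_span ⟨g, rfl⟩
    | zero => rw [map_zero, map_zero, zero_smul, sub_zero]; exact zero_mem _
    | add x y _ _ hx hy =>
      rw [map_add, map_add, add_smul]
      have : ι x + ι y - (χ (ι x) • (1 : L) + χ (ι y) • 1) =
        (ι x - χ (ι x) • 1) + (ι y - χ (ι y) • 1) := by abel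
      rw [this]
      exact add_mem hx hy
    | smul c x _ hx =>
      rw [map_smul, map_smul, smul_assoc, ← smul_sub]
      exact Submodule.smul_mem _ _ hx
  -- the balanced map `x ⊗ y ↦ χ y • x` modulo `U`
  let β : L ⊗[K] L →ₗ[K] L ⧸ U :=
    U.mkQ ∘ₗ TensorProduct.lift ((LinearMap.lsmul K L).flip.compl₂ χ.toLinearMap)
  have hβ : ∀ x y, β (x ⊗ₜ y) = U.mkQ (χ y • x) := fun x y => rfl
  let m0 : L := ∑ i, χ (t i) • s i
  have hm0 : ∀ b : L, b * m0 - χ b • m0 ∈ U := by
    intro b
    have h1 : β ((∑ i, (b * s i) ⊗ₜ[K] t i) - (∑ i, s i ⊗ₜ[K] (t i * b))) = 0 := by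
      have h2 := hsep b
      generalize (∑ i, (b * s i) ⊗ₜ[K] t i) - (∑ i, s i ⊗ₜ[K] (t i * b)) = w at h2
      induction h2 using Submodule.span_induction with
      | mem w hw =>
        obtain ⟨x, y, h, rfl⟩ := hw
        rw [map_sub, hβ, hβ, ← map_sub, Submodule.mkQ_apply, Submodule.Quotient.mk_eq_zero]
        have : χ y • (x * ι h) - χ (ι h * y) • x =
            (χ y • x) * (ι h - χ (ι h) • 1) := by
          rw [map_mul, mul_sub, smul_mul_assoc, mul_smul_comm, mul_one, smul_smul]
        rw [this]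
        exact Submodule.mul_mem_mul trivial (hIh h)
      | zero => exact map_zero _
      | add x y _ _ hx hy => rw [map_add, hx, hy, add_zero]
      | smul c x _ hx => rw [map_smul, hx, smul_zero]
    rw [map_sub, map_sum, map_sum] at h1
    simp only [hβ] at h1
    rw [← map_sum, ← map_sum, ← map_sub, Submodule.mkQ_apply,
      Submodule.Quotient.mk_eq_zero] at h1
    have h3 : b * m0 - χ b • m0 = ∑ i, χ (t i) • (b * s i) - ∑ i, χ (t i * b) • s i := by
      rw [Finset.mul_sum, Finset.smul_sum]
      congr 1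
      · exact Finset.sum_congr rfl fun i _ => by rw [mul_smul_comm]
      · exact Finset.sum_congr rfl fun i _ => by rw [map_mul, smul_smul, mul_comm]
    rw [h3]
    exact h1
  have hχm : χ m0 = 1 := by
    have : χ m0 = χ (∑ i, s i * t i) := by
      rw [map_sum, map_sum]
      refine Finset.sum_congr rfl fun i _ => ?_
      rw [map_smul, map_mul, smul_eq_mul, mul_comm]
    rw [this, hst, map_one]
  have hunit : IsUnit m0 := by
    have h1 : IsNilpotent (1 - m0) := isNilpotent_of_mem_jacobson (K := K)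
      (hker _ (by rw [map_sub, map_one, hχm, sub_self]))
    have := h1.isUnit_one_sub
    rwa [sub_sub_cancel] at this
  obtain ⟨v, hv⟩ := hunit
  -- `L = K + L I`
  have hLm : ∀ y : L, ∃ c : K, y - c • m0 ∈ U := by
    intro y
    refine ⟨χ (y * ↑v⁻¹), ?_⟩
    have := hm0 (y * ↑v⁻¹)
    rw [← hv, mul_assoc, Units.inv_mul, mul_one] at this
    rw [← hv]
    exact this
  have hL1 : ∀ y : L, ∃ c : K, y - c • (1 : L) ∈ U := by
    obtain ⟨c, hc⟩ := hLm 1
    by_cases h0 : c = 0
    · rw [h0, zero_smul, sub_zero] at hc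
      intro y
      refine ⟨0, ?_⟩
      rw [zero_smul, sub_zero]
      have := hU y 1 hc
      rwa [mul_one] at this
    · intro y
      obtain ⟨d, hd⟩ := hLm y
      refine ⟨d * c⁻¹, ?_⟩
      have h1 : (d * c⁻¹) • ((1 : L) - c • m0) ∈ U := Submodule.smul_mem _ _ hc
      have h2 := sub_mem hd h1
      have h3 : y - d • m0 - (d * c⁻¹) • ((1 : L) - c • m0) = y - (d * c⁻¹) • (1 : L) := by
        rw [smul_sub, smul_smul, mul_assoc, inv_mul_cancel₀ h0, mul_one]
        abel
      rwa [h3] at h2
  -- iterate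
  have hIJ : I ≤ radK K L := by
    refine Submodule.span_le.2 ?_
    rintro _ ⟨g, rfl⟩
    exact hker _ (by rw [map_sub, hχ, map_one, sub_self])
  have hIA : I ≤ LinearMap.range ι.toLinearMap := by
    refine Submodule.span_le.2 ?_
    rintro _ ⟨g, rfl⟩
    exact ⟨γ g - 1, by simp⟩
  obtain ⟨N, hN⟩ := radK_nil (K := K) (A := L)
  have hIN : I ^ N = ⊥ := by
    rw [eq_bot_iff, ← hN]
    have hpow : ∀ n : ℕ, I ^ n ≤ (radK K L) ^ n := by
      intro n
      induction n with
      | zero => rw [pow_zero, pow_zero]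
      | succ n ih => rw [pow_succ, pow_succ]; exact mul_le_mul' ih hIJ
    exact hpow N
  have hIpow : ∀ n : ℕ, I ^ n ≤ LinearMap.range ι.toLinearMap := by
    intro n
    induction n with
    | zero =>
      rw [pow_zero]
      exact Submodule.one_le.2 ⟨1, by simp⟩
    | succ n ih =>
      rw [pow_succ]
      refine Submodule.mul_le.2 fun x hx y hy => ?_
      obtain ⟨a, rfl⟩ := ih hx
      obtain ⟨b, rfl⟩ := hIA hy
      exact ⟨a * b, by simp⟩
  have key : ∀ n : ℕ, (⊤ : Submodule K L) ≤ LinearMap.range ι.toLinearMap ⊔ ⊤ * I ^ n := by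
    intro n
    induction n with
    | zero =>
      intro x _
      refine Submodule.mem_sup_right ?_
      have := Submodule.mul_mem_mul (M := (⊤ : Submodule K L)) (N := I ^ 0) (m := x) (n := 1)
        trivial (by rw [pow_zero]; exact Submodule.one_le.1 le_rfl)
      rwa [mul_one] at this
    | succ n ih =>
      refine ih.trans (sup_le le_sup_left ?_)
      refine Submodule.mul_le.2 fun x _ y hy => ?_
      obtain ⟨c, hc⟩ := hL1 x
      have h1 : x * y = (x - c • 1) * y + c • y := by
        rw [sub_mul, smul_mul_assoc, one_mul, sub_add_cancel]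
      rw [h1]
      refine add_mem (Submodule.mem_sup_right ?_)
        (Submodule.mem_sup_left (Submodule.smul_mem _ _ (hIpow n hy)))
      have h2 := Submodule.mul_mem_mul hc hy
      rw [pow_succ', ← mul_assoc]
      exact h2
  intro x
  have h1 : x ∈ LinearMap.range ι.toLinearMap ⊔ ⊤ * I ^ N := key N Submodule.mem_top
  rw [hIN, Submodule.mul_bot, sup_bot_eq] at h1
  obtain ⟨a, ha⟩ := h1
  exact ⟨a, ha⟩

omit [Algebra K L] in
/-- elements of a nil left ideal are in the radical -/
theorem mem_jacobson_of_nil {x : L} (h : ∀ y, IsNilpotent (y * x)) : x ∈ Ring.jacobson L := by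
  rw [← Ideal.jacobson_bot, Ideal.mem_jacobson_iff]
  intro y
  have h1 : IsUnit (1 + y * x) := (h y).isUnit_one_add
  obtain ⟨u, hu⟩ := h1
  refine ⟨↑u⁻¹, ?_⟩
  have h2 : (↑u⁻¹ : L) * (1 + y * x) = 1 := by rw [← hu, Units.inv_mul]
  rw [mul_add, mul_one, ← mul_assoc] at h2
  rw [Ideal.mem_bot, add_comm, h2, sub_self]

/-- the entry of a one by one matrix -/
noncomputable def entryHom {ν : Type*} [Fintype ν] [DecidableEq ν] (i0 : ν)
    (hi0 : ∀ i, i = i0) : Matrix ν ν K →ₐ[K] K where
  toFun M := M i0 i0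
  map_one' := by simp
  map_mul' M N := by
    rw [Matrix.mul_apply, Fintype.sum_eq_single i0 fun i hi => absurd (hi0 i) hi]
  map_zero' := rfl
  map_add' M N := rfl
  commutes' c := by simp [Matrix.algebraMap_matrix_apply]

/-- **Y2**: `L` with unique simple module `S = K ^ ν`, local commutant of the `p`-group `P`,
separable over the image of `KP`; if the identity of `S` is the sum of a trace and of an
idempotent of rank one, then `KP → L` is onto. -/
theorem y2 [FiniteDimensional K L] {p : ℕ} [Fact p.Prime] [CharP K p]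
    {P : Type*} [Group P] [Fintype P] (hP : IsPGroup p P) {A : Type*} [Ring A] [Algebra K A]
    (γ : P →* A) (ι : A →ₐ[K] L) (hspan : Submodule.span K (Set.range γ) = ⊤)
    {ν : Type*} [Fintype ν] [DecidableEq ν]
    (π : L →ₐ[K] Matrix ν ν K) (hπ : Function.Surjective π)
    (hker : ∀ x, π x = 0 → IsNilpotent x)
    (hloc : ∀ z : L, (∀ g, ι (γ g) * z = z * ι (γ g)) → IsUnit z ∨ IsNilpotent z)
    (h : Matrix ν ν K)
    (hf : (∑ g, π (ι (γ g)) * h * π (ι (γ g⁻¹))) * (∑ g, π (ι (γ g)) * h * π (ι (γ g⁻¹))) =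
      ∑ g, π (ι (γ g)) * h * π (ι (γ g⁻¹)))
    (hr : (1 - ∑ g, π (ι (γ g)) * h * π (ι (γ g⁻¹))).rank = 1)
    {m : ℕ} (s t : Fin m → L) (hst : ∑ i, s i * t i = 1)
    (hsep : ∀ b : L, (∑ i, (b * s i) ⊗ₜ[K] t i) - (∑ i, s i ⊗ₜ[K] (t i * b)) ∈
      Submodule.span K {z : L ⊗[K] L | ∃ (x y : L) (h : A),
        z = (x * ι h) ⊗ₜ[K] y - x ⊗ₜ[K] (ι h * y)}) :
    Function.Surjective ι := by
  classical
  have hc : Fintype.card ν = 1 :=
    y2_card ((ι : A →* L).comp γ) π hπ hloc h hf hr
  obtain ⟨i0, hi0⟩ := Fintype.card_eq_one_iff.1 hc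
  let χ : L →ₐ[K] K := (entryHom (K := K) i0 hi0).comp π
  have hχ0 : ∀ x, χ x = 0 → π x = 0 := fun x hx => by
    ext i j
    rw [hi0 i, hi0 j]
    exact hx
  refine y2_span γ ι hspan χ (fun x hx => ?_) (fun g => ?_) s t hst hsep
  · refine mem_jacobson_of_nil fun y => hker _ ?_
    rw [map_mul, hχ0 x hx, mul_zero]
  · obtain ⟨n, hn⟩ := hP g
    have h1 : (χ (ι (γ g)) - 1) ^ p ^ n = 0 := by
      rw [sub_pow_char_pow, one_pow, ← map_pow, ← map_pow, ← map_pow, hn, map_one, map_one,
        map_one, sub_self]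
    exact sub_eq_zero.1 (eq_zero_of_pow_eq_zero h1)

end Vale.P179.H175
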